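import Vale.Agent.P347.H941.Acc

/-! Every condition number (P347, helper941 with 300, 473, 8, 710): definitions and interfaces.

`κ` is the condition number, `η = 1 / κ` the step of the proximal sampler,
`U_y = post V (1 / κ) y`, that is `U_y x = V x + ‖x - y‖ ^ 2 / (2 * (1 / κ))`. -/

open MeasureTheory Filter Module
open scoped RealInnerProductSpace

namespace Vale.Agent.P347

/-- `C^2` potentials on `ℝ^d` with Hessian between `I` and `κ I` and `‖∇V(0)‖ ≤ R`. -/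
def PotR (d : ℕ) (κ R : ℝ) : Set (Eu d → ℝ) :=
  {V | ContDiff ℝ 2 V ∧ ‖gradient V 0‖ ≤ R ∧
    ∀ x v : Eu d, ‖v‖ ^ 2 ≤ fderiv ℝ (fderiv ℝ V) x v v ∧
      fderiv ℝ (fderiv ℝ V) x v v ≤ κ * ‖v‖ ^ 2}

/-- `A` samples from every target of the class `PotR d κ R` within total variation `ε`. -/
def Algo.WithinR {d q : ℕ} (A : Algo d q) (κ R ε : ℝ) : Prop :=
  ∀ V ∈ PotR d κ R, ∀ B : Set (Eu d), MeasurableSet B →
    |(A.law V).real B - (target V).real B| ≤ ε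

namespace K

variable {d q : ℕ}

/-- The output of an algorithm for the seed `ω`. -/
noncomputable def run (A : Algo d q) (V : Eu d → ℝ) (ω : A.Ω) : Eu d :=
  A.out (ω, A.answers V ω q le_rfl)

/-- `∇U_y(x) = ∇V(x) + κ (x - y)`. -/
noncomputable def gradU (V : Eu d → ℝ) (κ : ℝ) (y x : Eu d) : Eu d :=
  gradient V x + κ • (x - y)

/-- Gradient descent for `U_y` with the step `1 / (2 κ)` started at `y`. -/
noncomputable def gd (V : Eu d → ℝ) (κ : ℝ) (y : Eu d) : ℕ → Eu d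
  | 0 => y
  | n + 1 => gd V κ y n - (1 / (2 * κ)) • gradU V κ y (gd V κ y n)

/-- The rescaled potential around `c`, with the linear part at `c` removed:
`u ↦ U_y(c + u / √(1 + κ)) - U_y(c) - ⟨∇U_y(c), u / √(1 + κ)⟩`. -/
noncomputable def sub (V : Eu d → ℝ) (κ : ℝ) (y c : Eu d) (u : Eu d) : ℝ :=
  V (c + (√(1 + κ))⁻¹ • u) + κ / 2 * ‖c + (√(1 + κ))⁻¹ • u - y‖ ^ 2 - V c - κ / 2 * ‖c - y‖ ^ 2
    - ⟪gradU V κ y c, (√(1 + κ))⁻¹ • u⟫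

/-- The inner sampler: gradient descent, then the base algorithm for the rescaled potential. -/
noncomputable def inner (A : Algo d q) (V : Eu d → ℝ) (κ : ℝ) (n₀ : ℕ) (y : Eu d) (ω : A.Ω) :
    Eu d :=
  gd V κ y n₀ + (√(1 + κ))⁻¹ • run A (sub V κ y (gd V κ y n₀)) ω

/-- One step of the chain from the point `x` with the seeds `z` (Gaussian) and `ω`. -/
noncomputable def step (A : Algo d q) (V : Eu d → ℝ) (κ : ℝ) (n₀ : ℕ) (x : Eu d)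
    (p : Eu d × A.Ω) : Eu d :=
  inner A V κ n₀ (x + √(1 / κ) • p.1) p.2

/-- The transition operator of the chain. -/
noncomputable def Sop (A : Algo d q) (V : Eu d → ℝ) (κ : ℝ) (n₀ : ℕ) (f : Eu d → ℝ)
    (x : Eu d) : ℝ :=
  letI := A.mΩ
  ∫ p, f (step A V κ n₀ x p) ∂((gam (Eu d)).prod A.P)

/-- The transition operator of the ideal proximal sampler. -/
noncomputable def Pop (V : Eu d → ℝ) (κ : ℝ) (f : Eu d → ℝ) (x : Eu d) : ℝ :=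
  ∫ z, (∫ u, f u ∂(gibbs (post V (1 / κ) (x + √(1 / κ) • z)))) ∂(gam (Eu d))

/-- **M1** (helper941). -/
def M1 : Prop := ∀ δ : ℝ, 0 < δ → ∃ C : ℝ, 1 ≤ C ∧ ∀ (d : ℕ) (ε : ℝ), 1 ≤ d → 0 < ε → ε ≤ 1 →
  ∃ q : ℕ, (q : ℝ) ≤ C * ((d : ℝ) / ε) ^ δ ∧ ∃ A : Algo d q, A.Within ε

/-- **M2** (helper300): the chain is an algorithm, and `Sop` preserves measurable functions with
values in `[0, 1]`. -/
def M2 : Prop := ∀ (d q : ℕ) (A : Algo d q) (κ : ℝ) (n₀ : ℕ), 1 ≤ κ →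
  (∀ V : Eu d → ℝ, ContDiff ℝ 2 V → ∀ f : Eu d → ℝ, Measurable f → (∀ x, 0 ≤ f x ∧ f x ≤ 1) →
    Measurable (Sop A V κ n₀ f) ∧ ∀ x, 0 ≤ Sop A V κ n₀ f x ∧ Sop A V κ n₀ f x ≤ 1) ∧
  (∀ V : Eu d → ℝ, ContDiff ℝ 2 V → letI := A.mΩ;
    Measurable (fun p : Eu d × A.Ω => inner A V κ n₀ p.1 p.2)) ∧
  ∀ N : ℕ, ∃ A' : Algo d (N * (n₀ + 1 + q)), ∀ V : Eu d → ℝ, ContDiff ℝ 2 V →
    ∀ B : Set (Eu d), MeasurableSet B →
      (A'.law V).real B = (Sop A V κ n₀)^[N] (B.indicator fun _ => 1) 0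

/-- **M3** (helper473): the ideal chain. -/
def M3 : Prop := ∀ (d : ℕ) (κ R : ℝ), 1 ≤ d → 1 ≤ κ → 0 ≤ R → ∀ V ∈ PotR d κ R,
  IsProbabilityMeasure (gibbs V) ∧
  (∀ y, IsProbabilityMeasure (gibbs (post V (1 / κ) y))) ∧
  (∀ f : Eu d → ℝ, Measurable f → (∀ x, 0 ≤ f x ∧ f x ≤ 1) →
    Measurable (fun y => ∫ u, f u ∂(gibbs (post V (1 / κ) y))) ∧
    Measurable (Pop V κ f) ∧ ∀ x, 0 ≤ Pop V κ f x ∧ Pop V κ f x ≤ 1) ∧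
  (∀ (N : ℕ) (f : Eu d → ℝ), Measurable f → (∀ x, 0 ≤ f x ∧ f x ≤ 1) →
    |(Pop V κ)^[N + 1] f 0 - ∫ x, f x ∂(gibbs V)| ≤
      ((1 + 1 / κ)⁻¹) ^ N * (√κ / 2) * (√d + R)) ∧
  (∀ (k : ℕ) (b : ℝ) (ψ : Eu d → ℝ), 0 ≤ b → (∀ x, 0 ≤ ψ x ∧ ψ x ≤ 1) →
    (∀ x y, |ψ x - ψ y| ≤ b * ‖x - y‖) →
    (Pop V κ)^[k] ψ 0 ≤ ψ 0 + 2 * b * (√d + R))

/-- **M4** (helper8): the inner sampler is close to the proximal target. -/
def M4 : Prop := ∀ (d q : ℕ) (A : Algo d q) (κ R ε : ℝ) (n₀ : ℕ), 1 ≤ d → 1 ≤ κ → 0 ≤ R →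
  A.Within ε → ∀ V ∈ PotR d κ R, ∀ (y : Eu d) (f : Eu d → ℝ), Measurable f →
    (∀ x, 0 ≤ f x ∧ f x ≤ 1) →
    |(letI := A.mΩ; ∫ ω, f (inner A V κ n₀ y ω) ∂A.P) - ∫ u, f u ∂(gibbs (post V (1 / κ) y))| ≤
      ε + (√(1 / 2)) ^ n₀ * (R + κ * ‖y‖)

/-- **M5** (helper710): choice of the number `N + 1` of outer steps, the number `n₀` of gradient
steps and the inner accuracy `ε'`, and the bound of the cost. -/
def M5 : Prop := ∀ δ : ℝ, 0 < δ → ∃ δ' : ℝ, 0 < δ' ∧ ∀ C₀ : ℝ, 1 ≤ C₀ → ∃ C : ℝ, 1 ≤ C ∧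
  ∀ (d : ℕ) (κ R ε : ℝ), 1 ≤ d → 1 ≤ κ → 0 ≤ R → 0 < ε → ε ≤ 1 →
  ∃ (N n₀ : ℕ) (ε' : ℝ), 0 < ε' ∧ ε' ≤ 1 ∧
    (N + 1) * (ε' + 3 * (√(1 / 2)) ^ n₀ * κ * (√d + R)) +
      ((1 + 1 / κ)⁻¹) ^ N * (√κ / 2) * (√d + R) ≤ ε ∧
    ∀ q : ℕ, (q : ℝ) ≤ C₀ * ((d : ℝ) / ε') ^ δ' →
      (((N + 1) * (n₀ + 1 + q) : ℕ) : ℝ) ≤ C * κ * (κ * d * (1 + R) / ε) ^ δ

end K

end Vale.Agent.P347
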