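import Vale.Agent.P347.Stmt

/-! Definitions for the hand-in `P347.PolynomialAccuracy` (helper941). -/

open MeasureTheory

namespace Vale.Agent.P347

/-- `A` samples from every target of the class `V_d` within total variation `ε`. -/
def Algo.Within {d q : ℕ} (A : Algo d q) (ε : ℝ) : Prop :=
  ∀ V ∈ PotClass d, ∀ B : Set (Eu d), MeasurableSet B →
    |(A.law V).real B - (target V).real B| ≤ ε

/-- The query complexity at the accuracy `ε`: the least `q` for which some algorithm with `q`
queries samples from every target of the class `V_d` within total variation `ε`. -/
noncomputable def QAt (d : ℕ) (ε : ℝ) : ℕ := sInf {q | ∃ A : Algo d q, A.Within ε}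

end Vale.Agent.P347
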