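import Vale.Agent.P347.Bdl.B7
import Vale.Agent.P347.Bdl.B8
import Vale.Agent.P347.H941.Defs

/-! Polynomial accuracy for P347 (helper941). -/

open MeasureTheory Filter Module
open scoped ENNReal NNReal
open Vale.Agent.P347.Z

namespace Vale.Agent.P347.S

/-- One more query turns a sampler with dual Wasserstein error `e ≤ 1 / (200 √(d ^ (3 K + 1)))`
into an algorithm with total variation error `d ^ (-K)`. -/
theorem exists_within {d : ℕ} {e : ℝ} (K : ℕ) (hd : 1 ≤ d)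
    (he : e ≤ 1 / (200 * √((d : ℝ) ^ (3 * K + 1)))) (A : Samp d Unit (Eu d))
    (hA : ∀ V ∈ PotClass d, WD (A.law V ()) (gibbs V) e) :
    ∃ A' : Algo d (A.cost + 1), A'.Within (1 / (d : ℝ) ^ K) := by
  have hd0 : (1 : ℝ) ≤ d := by exact_mod_cast hd
  have hdK : (1 : ℝ) ≤ (d : ℝ) ^ K := one_le_pow₀ hd0
  set P : ℝ := (d : ℝ) ^ (K + 1) with hPdef
  have hP1 : (1 : ℝ) ≤ P := one_le_pow₀ hd0
  have hP0 : 0 < P := by linarith only [hP1]
  have hPd : P = (d : ℝ) ^ K * d := by rw [hPdef, pow_succ]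
  set s : ℝ := 1 / (8 * P) with hs
  have hs0 : 0 < s := by rw [hs]; positivity
  have hs1 : s ≤ 1 / 8 := by
    rw [hs]
    apply one_div_le_one_div_of_le (by norm_num)
    linarith only [hP1]
  have hsd : s * d = 1 / 8 * (1 / (d : ℝ) ^ K) := by
    rw [hs, hPd]
    field_simp
  obtain ⟨B, cB, lB⟩ := exists_ula d s
  obtain ⟨A1, c1, l1⟩ := exists_bind A B
  obtain ⟨A2, l2⟩ := exists_algo_of_samp A1
  have hgood : ∃ A' : Algo d A1.cost, A'.Within (1 / (d : ℝ) ^ K) := by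
    refine ⟨A2, fun V hV S hS => ?_⟩
    have hpot := PotClass.pot hV
    have hprob := gibbs_prob hV
    obtain ⟨iG, mG⟩ := gibbs_grad_sq hV
    rw [l2 V hV, target_eq_gibbs hV]
    set f : Eu d → ℝ := S.indicator (fun _ => (1 : ℝ)) with hf
    have hfm : Measurable f := measurable_const.indicator hS
    have bf : ∀ x, 0 ≤ f x ∧ f x ≤ 1 := fun x => by
      simp only [hf]
      by_cases hx : x ∈ S
      · rw [Set.indicator_of_mem hx]; norm_num
      · rw [Set.indicator_of_notMem hx]; norm_num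
    have hfb : ∀ x, |f x| ≤ 1 := fun x => by rw [abs_of_nonneg (bf x).1]; exact (bf x).2
    have e1 : ∀ μ : Measure (Eu d), μ.real S = ∫ x, f x ∂μ := fun μ => by
      simp only [hf]
      rw [integral_indicator_const _ hS, smul_eq_mul, mul_one]
    rw [e1, e1, l1 V hV () f hfm ⟨1, hfb⟩]
    have e2 : ∀ y, ∫ x, f x ∂(B.law V ((), y)) =
        ∫ z, f ((y - (s / 2) • gradient V y) + √s • z) ∂(gam (Eu d)) := fun y =>
      lB V hV () y f hfm
    simp only [e2]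
    set Q : Eu d → ℝ := fun y =>
      ∫ z, f ((y - (s / 2) • gradient V y) + √s • z) ∂(gam (Eu d)) with hQ
    have bQ : ∀ y, |Q y| ≤ 1 := fun y => by
      simp only [hQ]
      rw [← Real.norm_eq_abs]
      refine (norm_integral_le_of_norm_le_const (C := 1)
        (Eventually.of_forall fun z => ?_)).trans ?_
      · rw [Real.norm_eq_abs]; exact hfb _
      · simp only [probReal_univ, mul_one, Std.le_refl]
    have hss0 : 0 < √s := Real.sqrt_pos.2 hs0
    have lQ : ∀ y y', |Q y - Q y'| ≤ 1 / (2 * √s) * ‖y - y'‖ := fun y y' => by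
      have h1 := gam_pinsker hs0 (y - (s / 2) • gradient V y) (y' - (s / 2) • gradient V y')
        hfm bf
      have h2 := drift_contr hpot hs0.le (by linarith only [hs1]) y y'
      refine h1.trans ?_
      rw [div_mul_eq_mul_div, one_mul]
      exact div_le_div_of_nonneg_right h2 (by positivity)
    have h1 := (hA V hV).lip (L := 1 / (2 * √s)) (by positivity) lQ ⟨1, bQ⟩
    have h2 := step_tv hpot hs0 hfm bf
    have hK0 : 0 < 1 / (d : ℝ) ^ K := by positivity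
    have h3 : (1 + s) * (s * (finrank ℝ (Eu d) : ℝ)) +
        s / 4 * ∫ x, ‖gradient V x‖ ^ 2 ∂(gibbs V) ≤ 1 / 4 * (1 / (d : ℝ) ^ K) := by
      have h4 : s / 4 * ∫ x, ‖gradient V x‖ ^ 2 ∂(gibbs V) ≤ s / 4 * (2 * d) :=
        mul_le_mul_of_nonneg_left mG (by positivity)
      have h6 : (finrank ℝ (Eu d) : ℝ) = d := by
        simp only [finrank_euclideanSpace, Fintype.card_fin]
      rw [h6, hsd]
      have h7 : s / 4 * (2 * d) = 1 / 16 * (1 / (d : ℝ) ^ K) := by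
        have : s / 4 * (2 * d) = s * d / 2 := by ring
        rw [this, hsd]
        ring
      rw [h7] at h4
      nlinarith only [hs1, h4, hK0, hs0]
    have h4 : 1 / (2 * √s) * e ≤ 1 / 4 * (1 / (d : ℝ) ^ K) := by
      have h5 : √s = 1 / √(8 * P) := by
        rw [hs, Real.sqrt_div zero_le_one, Real.sqrt_one]
      have h6 : √(8 * P) ≤ 3 * √P := by
        rw [Real.sqrt_mul (by norm_num)]
        refine mul_le_mul_of_nonneg_right ?_ (Real.sqrt_nonneg _)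
        rw [Real.sqrt_le_left (by norm_num)]
        norm_num
      have h7 : 1 / (2 * √s) ≤ 3 / 2 * √P := by
        rw [h5]
        have h8 : 1 / (2 * (1 / √(8 * P))) = √(8 * P) / 2 := by
          have : √(8 * P) ≠ 0 := (Real.sqrt_pos.2 (by positivity)).ne'
          field_simp
        rw [h8]
        linarith only [h6]
      have h9 : (d : ℝ) ^ (3 * K + 1) = ((d : ℝ) ^ K) ^ 2 * P := by
        rw [hPd]; ring
      have h10 : √((d : ℝ) ^ (3 * K + 1)) = (d : ℝ) ^ K * √P := by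
        rw [h9, Real.sqrt_mul (by positivity), Real.sqrt_sq (by positivity)]
      have hsP : 0 < √P := Real.sqrt_pos.2 hP0
      have h11 : 1 / (2 * √s) * e ≤ 3 / 2 * √P * (1 / (200 * √((d : ℝ) ^ (3 * K + 1)))) :=
        mul_le_mul h7 he (hA V hV).nonneg (by positivity)
      refine h11.trans ?_
      rw [h10]
      have h12 : 3 / 2 * √P * (1 / (200 * ((d : ℝ) ^ K * √P))) = 3 / 400 * (1 / (d : ℝ) ^ K) := by
        field_simp
        norm_num
      rw [h12]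
      nlinarith only [hK0]
    have h5 : |(∫ y, Q y ∂(A.law V ())) - ∫ x, f x ∂(gibbs V)| ≤
        |(∫ y, Q y ∂(A.law V ())) - ∫ y, Q y ∂(gibbs V)| +
        |(∫ y, Q y ∂(gibbs V)) - ∫ x, f x ∂(gibbs V)| := abs_sub_le _ _ _
    linarith only [h3, h1, h2, h4, h5, hK0]
  have hc : A1.cost = A.cost + 1 := by omega
  rw [hc] at hgood
  exact hgood

/-- Samplers with polynomially small dual Wasserstein error and subpolynomial cost. -/
theorem main_wd (hN : NodesStatement) (hD : DownStatement) (L : ℕ) (hL : 1 ≤ L) {ε₀ : ℝ}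
    (hε₀ : 0 < ε₀) :
    ∀ᶠ d : ℕ in atTop, ∃ A : Samp d Unit (Eu d), ((A.cost + 1 : ℕ) : ℝ) ≤ (d : ℝ) ^ ε₀ ∧
      ∀ V ∈ PotClass d, WD (A.law V ()) (gibbs V) (1 / (200 * √((d : ℝ) ^ L))) := by
  have hL0 : (0 : ℝ) < L := by exact_mod_cast hL
  have hε₁ : 0 < ε₀ / L := div_pos hε₀ hL0
  obtain ⟨p, hp2, hpar⟩ := exists_params hε₁
  have hp : 1 ≤ p := le_trans one_le_two hp2
  obtain ⟨N, C, hC, hnodes⟩ := nodesAt_of hN p hp2
  obtain ⟨C', hC', hdown⟩ := downAt_of hD p hp2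
  have hN1 : 1 ≤ N := mainZ_pos hp hnodes
  have hpow : Tendsto (fun d : ℕ => d ^ L) atTop atTop := tendsto_pow_atTop (by omega)
  filter_upwards [hpow.eventually (hpar N C C' hN1 hC hC'), eventually_ge_atTop 1] with d hd hd1
  obtain ⟨δ, ϖ, ε, a, smax, smin, lmax, mmax, B, D, J, N₁, K, ap, hq⟩ := hd
  have par := ap.par
  have hp1 : (1 : ℝ) ≤ p := by exact_mod_cast hp
  have hδ8 : δ ≤ 1 / 8 := by
    refine par.hδ'.trans ?_
    rw [div_le_div_iff₀ (by positivity) (by norm_num)]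
    linarith only [hp1]
  have hδ := par.hδ
  have hsmax := par.hs
  have hev : ∀ l ≤ lmax, ∀ s, 0 < s → s ≤ smax → EvalAt d (δ / 4) ϖ D l mmax s a 9 B :=
    fun l hl s hs hs' => evalAt_all par hnodes hd1 ap.hJ ap.hmin ap.hmin1 ap.hJε rfl ap.ha ap.hB
      hl le_rfl hs hs'
  set ε' : ℝ := 11 * p ^ 2 * C' * a * eta ϖ lmax mmax with hε'
  have hε'0 : 0 ≤ ε' := by
    have h1 : 0 ≤ eta ϖ lmax mmax := pow_nonneg par.hϖ.le _
    have h2 : 0 ≤ a := le_trans zero_le_two par.ha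
    have h3 : 0 ≤ C' := le_trans zero_le_one hC'
    rw [hε']
    positivity
  have hstep : ∀ s ς : ℝ, 0 < s → s ≤ smax → δ * s / 4 ≤ ς ^ 2 → 0 < ς →
      ∃ A : Samp d (Eu d) (Eu d), A.cost ≤ p * B * D ^ lmax ∧ ∀ V ∈ PotClass d, ∃ Q,
        StepTo A V s ((1 - δ) * s + ς ^ 2) (1 - δ * s / 4) ε' Q := fun s ς hs hs' hς hς0 =>
    exists_downStep hp hC' hd1 par.hδ par.hδ' par.hϖ par.hϖ' par.ha par.hs' ap.mm par.i9 ap.j2
      ap.j3 ap.j4 ap.j5 hev hs hs' hς hς0 (hdown s δ hs (hs'.trans par.hs') par.hδ par.hδ')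
  have hmain : ∃ A : Samp d (Eu d) (Eu d), A.cost ≤ p * B * D ^ lmax ∧ ∀ V ∈ PotClass d, ∃ Q,
      StepTo A V smax smax (1 - δ * smax / 4) ε' Q := by
    have h0 : 0 < δ * smax := mul_pos hδ hsmax
    have hsq : √(δ * smax) ^ 2 = δ * smax := Real.sq_sqrt h0.le
    obtain ⟨A, hA, hA'⟩ := hstep smax (√(δ * smax)) hsmax le_rfl (by rw [hsq]; linarith only [h0])
      (Real.sqrt_pos.2 h0)
    refine ⟨A, hA, fun V hV => ?_⟩
    obtain ⟨Q, hQ⟩ := hA' V hV
    exact ⟨Q, mainZ_step hQ (by rw [hsq]; ring) le_rfl⟩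
  have hdesc : ∀ k < K, ∃ A : Samp d (Eu d) (Eu d), A.cost ≤ p * B * D ^ lmax ∧
      ∀ V ∈ PotClass d, ∃ Q,
        StepTo A V ((1 - δ / 2) ^ k * smax) ((1 - δ / 2) ^ (k + 1) * smax) 1 ε' Q := by
    intro k _
    have h1 : 0 < 1 - δ / 2 := by linarith only [hδ8]
    have h2 : (1 - δ / 2) ^ k ≤ 1 := pow_le_one₀ h1.le (by linarith only [hδ])
    have hs : 0 < (1 - δ / 2) ^ k * smax := mul_pos (pow_pos h1 k) hsmax
    have hs' : (1 - δ / 2) ^ k * smax ≤ smax := mul_le_of_le_one_left hsmax.le h2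
    have h0 : 0 < δ * ((1 - δ / 2) ^ k * smax) / 2 := by positivity
    have hsq : √(δ * ((1 - δ / 2) ^ k * smax) / 2) ^ 2 = δ * ((1 - δ / 2) ^ k * smax) / 2 :=
      Real.sq_sqrt h0.le
    obtain ⟨A, hA, hA'⟩ := hstep _ (√(δ * ((1 - δ / 2) ^ k * smax) / 2)) hs hs'
      (by rw [hsq]; linarith only [h0]) (Real.sqrt_pos.2 h0)
    refine ⟨A, hA, fun V hV => ?_⟩
    obtain ⟨Q, hQ⟩ := hA' V hV
    refine ⟨Q, mainZ_step hQ ?_ ?_⟩
    · rw [hsq, pow_succ]
      ring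
    · have : 0 < δ * ((1 - δ / 2) ^ k * smax) / 4 := by positivity
      linarith only [this]
  -- the error bound for the dimension `d ^ L` in place of `d`
  have hdr : (1 : ℝ) ≤ d := by exact_mod_cast hd1
  have hdL : (d : ℝ) ≤ (d : ℝ) ^ L := by
    calc (d : ℝ) = (d : ℝ) ^ 1 := (pow_one _).symm
      _ ≤ (d : ℝ) ^ L := pow_le_pow_right₀ hdr hL
  have hdL1 : √(d : ℝ) ≤ √((d : ℝ) ^ L) := Real.sqrt_le_sqrt hdL
  have k3 := ap.k3
  push_cast at k3
  have hfac : 0 ≤ 1 - δ * smax / 4 := by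
    have h1 : δ * smax ≤ 1 / 8 * (1 / 4) := mul_le_mul hδ8 par.hs' hsmax.le (by norm_num)
    linarith only [h1]
  have hfac2 : 0 ≤ 1 - δ / 2 := by linarith only [hδ8]
  have k3' : 2 * √d * (1 - δ * smax / 4) ^ N₁ + ε' * √d * (6 * N₁ + 20 * K)
      + √((1 - δ / 2) ^ K * smax * d) ≤ 1 / (200 * √((d : ℝ) ^ L)) := by
    refine le_trans ?_ k3
    have a1 : 2 * √(d : ℝ) * (1 - δ * smax / 4) ^ N₁ ≤
        2 * √((d : ℝ) ^ L) * (1 - δ * smax / 4) ^ N₁ :=
      mul_le_mul_of_nonneg_right (by linarith only [hdL1]) (pow_nonneg hfac _)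
    have a2 : ε' * √(d : ℝ) * (6 * N₁ + 20 * K) ≤ ε' * √((d : ℝ) ^ L) * (6 * N₁ + 20 * K) :=
      mul_le_mul_of_nonneg_right (mul_le_mul_of_nonneg_left hdL1 hε'0) (by positivity)
    have a3 : √((1 - δ / 2) ^ K * smax * d) ≤ √((1 - δ / 2) ^ K * smax * (d : ℝ) ^ L) :=
      Real.sqrt_le_sqrt (mul_le_mul_of_nonneg_left hdL
        (mul_nonneg (pow_nonneg hfac2 _) hsmax.le))
    exact add_le_add (add_le_add a1 a2) a3
  obtain ⟨A, hA, hA'⟩ := exists_chain (c₀ := p * B * D ^ lmax) (N₁ := N₁) (K := K) hd1 par.hδ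
    hδ8 par.hs par.hs' hε'0 ap.k1 ap.k2 hmain hdesc k3'
  refine ⟨A, ?_, hA'⟩
  have hcost : ((A.cost + 1 : ℕ) : ℝ) ≤ (((N₁ + K) * (p * B * D ^ lmax) + 1 : ℕ) : ℝ) := by
    exact_mod_cast Nat.add_le_add_right hA 1
  refine hcost.trans (hq.trans (le_of_eq ?_))
  push_cast
  rw [← Real.rpow_natCast (d : ℝ) L, ← Real.rpow_mul (by linarith only [hdr]),
    mul_div_cancel₀ _ hL0.ne']

/-- **Polynomial accuracy.** -/
theorem main_acc (K : ℕ) {ε₀ : ℝ} (hε₀ : 0 < ε₀) :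
    ∀ᶠ d : ℕ in atTop, ∃ q : ℕ, (q : ℝ) ≤ (d : ℝ) ^ ε₀ ∧
      ∃ A : Algo d q, A.Within (1 / (d : ℝ) ^ K) := by
  filter_upwards [main_wd Z.nodes Z.down (3 * K + 1) (by omega) hε₀, eventually_ge_atTop 1]
    with d hd hd1
  obtain ⟨A, hc, hA⟩ := hd
  obtain ⟨A', hA'⟩ := exists_within K hd1 le_rfl A hA
  exact ⟨_, hc, A', hA'⟩

end Vale.Agent.P347.S
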