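import Vale.Agent.P347.H941.KDefs

/-! M1: the base theorem, uniform in the dimension and the accuracy (helper941, P347). -/

open MeasureTheory Filter Module
open scoped ENNReal NNReal
open Vale.Agent.P347.Z

namespace Vale.Agent.P347.S

/-- One more query turns a sampler with dual Wasserstein error `e ≤ 1 / (200 √D)`, `d ≤ ε ^ 3 D`,
into an algorithm with total variation error `ε`. -/
theorem exists_within_eps {d : ℕ} {e ε : ℝ} {D : ℕ} (hd : 1 ≤ d) (hε : 0 < ε) (hε1 : ε ≤ 1)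
    (hD : (d : ℝ) ≤ ε ^ 3 * D)
    (he : e ≤ 1 / (200 * √(D : ℝ))) (A : Samp d Unit (Eu d))
    (hA : ∀ V ∈ PotClass d, WD (A.law V ()) (gibbs V) e) :
    ∃ A' : Algo d (A.cost + 1), A'.Within ε := by
  have hd0 : (1 : ℝ) ≤ d := by exact_mod_cast hd
  have hd00 : (0 : ℝ) < d := by linarith only [hd0]
  have hε3 : 0 < ε ^ 3 := by positivity
  have hD0 : (0 : ℝ) < D := by
    by_contra h
    have h1 : (D : ℝ) ≤ 0 := not_lt.1 h
    have h2 : ε ^ 3 * D ≤ 0 := mul_nonpos_of_nonneg_of_nonpos hε3.le h1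
    linarith only [hD, h2, hd0]
  set s : ℝ := ε / (8 * d) with hs
  have hs0 : 0 < s := by rw [hs]; positivity
  have hs1 : s ≤ 1 / 8 := by
    rw [hs, div_le_iff₀ (by positivity)]
    linarith only [hd0, hε1]
  have hsd : s * d = ε / 8 := by
    rw [hs]
    field_simp
  obtain ⟨B, cB, lB⟩ := exists_ula d s
  obtain ⟨A1, c1, l1⟩ := exists_bind A B
  obtain ⟨A2, l2⟩ := exists_algo_of_samp A1
  have hgood : ∃ A' : Algo d A1.cost, A'.Within ε := by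
    refine ⟨A2, fun V hV S hS => ?_⟩
    have hpot := PotClass.pot hV
    have hprob := gibbs_prob hV
    obtain ⟨iG, mG⟩ := gibbs_grad_sq hV
    rw [l2 V hV, target_eq_gibbs hV]
    set f : Eu d → ℝ := S.indicator (fun _ => (1 : ℝ)) with hf
    have hfm : Measurable f := measurable_const.indicator hS
    have bf : ∀ x, 0 ≤ f x ∧ f x ≤ 1 := fun x => by
      simp only [hf]
      by_cases hx : x ∈ S
      · rw [Set.indicator_of_mem hx]; norm_num
      · rw [Set.indicator_of_notMem hx]; norm_num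
    have hfb : ∀ x, |f x| ≤ 1 := fun x => by rw [abs_of_nonneg (bf x).1]; exact (bf x).2
    have e1 : ∀ μ : Measure (Eu d), μ.real S = ∫ x, f x ∂μ := fun μ => by
      simp only [hf]
      rw [integral_indicator_const _ hS, smul_eq_mul, mul_one]
    rw [e1, e1, l1 V hV () f hfm ⟨1, hfb⟩]
    have e2 : ∀ y, ∫ x, f x ∂(B.law V ((), y)) =
        ∫ z, f ((y - (s / 2) • gradient V y) + √s • z) ∂(gam (Eu d)) := fun y =>
      lB V hV () y f hfm
    simp only [e2]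
    set Q : Eu d → ℝ := fun y =>
      ∫ z, f ((y - (s / 2) • gradient V y) + √s • z) ∂(gam (Eu d)) with hQ
    have bQ : ∀ y, |Q y| ≤ 1 := fun y => by
      simp only [hQ]
      rw [← Real.norm_eq_abs]
      refine (norm_integral_le_of_norm_le_const (C := 1)
        (Eventually.of_forall fun z => ?_)).trans ?_
      · rw [Real.norm_eq_abs]; exact hfb _
      · simp only [probReal_univ, mul_one, Std.le_refl]
    have hss0 : 0 < √s := Real.sqrt_pos.2 hs0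
    have lQ : ∀ y y', |Q y - Q y'| ≤ 1 / (2 * √s) * ‖y - y'‖ := fun y y' => by
      have h1 := gam_pinsker hs0 (y - (s / 2) • gradient V y) (y' - (s / 2) • gradient V y')
        hfm bf
      have h2 := drift_contr hpot hs0.le (by linarith only [hs1]) y y'
      refine h1.trans ?_
      rw [div_mul_eq_mul_div, one_mul]
      exact div_le_div_of_nonneg_right h2 (by positivity)
    have h1 := (hA V hV).lip (L := 1 / (2 * √s)) (by positivity) lQ ⟨1, bQ⟩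
    have h2 := step_tv hpot hs0 hfm bf
    have h3 : (1 + s) * (s * (finrank ℝ (Eu d) : ℝ)) +
        s / 4 * ∫ x, ‖gradient V x‖ ^ 2 ∂(gibbs V) ≤ 1 / 4 * ε := by
      have h4 : s / 4 * ∫ x, ‖gradient V x‖ ^ 2 ∂(gibbs V) ≤ s / 4 * (2 * d) :=
        mul_le_mul_of_nonneg_left mG (by positivity)
      have h6 : (finrank ℝ (Eu d) : ℝ) = d := by
        simp only [finrank_euclideanSpace, Fintype.card_fin]
      rw [h6, hsd]
      have h7 : s / 4 * (2 * d) = 1 / 16 * ε := by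
        have : s / 4 * (2 * d) = s * d / 2 := by ring
        rw [this, hsd]
        ring
      rw [h7] at h4
      nlinarith only [hs1, h4, hε, hs0]
    have h4 : 1 / (2 * √s) * e ≤ 1 / 4 * ε := by
      have h8 : 1 / (2 * √s) * e ≤ 1 / (2 * √s) * (1 / (200 * √(D : ℝ))) :=
        mul_le_mul_of_nonneg_left he (by positivity)
      refine h8.trans ?_
      have hsD0 : 0 < √(D : ℝ) := Real.sqrt_pos.2 hD0
      have h9 : 1 ≤ 8 * ε ^ 2 * (s * D) := by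
        have h91 : 8 * ε ^ 2 * (s * D) = ε ^ 3 * D / d := by
          rw [hs]
          field_simp
        rw [h91, le_div_iff₀ hd00, one_mul]
        exact hD
      have hX : √s * √(D : ℝ) = √(s * D) := (Real.sqrt_mul hs0.le _).symm
      have hX0 : 0 < √(s * D) := Real.sqrt_pos.2 (mul_pos hs0 hD0)
      have h10 : 1 ≤ 3 * ε * √(s * D) := by
        have h101 : √(s * D) ^ 2 = s * D := Real.sq_sqrt (mul_pos hs0 hD0).le
        have h102 : 1 ≤ (3 * ε * √(s * D)) ^ 2 := by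
          have : (3 * ε * √(s * D)) ^ 2 = 9 * ε ^ 2 * (s * D) := by
            rw [mul_pow, mul_pow, h101]; ring
          rw [this]
          have h103 : 0 ≤ ε ^ 2 * (s * D) := by positivity
          linarith only [h9, h103]
        have h104 : 0 ≤ 3 * ε * √(s * D) := by positivity
        nlinarith only [h102, h104]
      have h11 : 1 / (2 * √s) * (1 / (200 * √(D : ℝ))) = 1 / (400 * √(s * D)) := by
        rw [← hX, div_mul_div_comm, one_mul]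
        congr 1
        ring
      rw [h11, div_le_iff₀ (by positivity)]
      nlinarith only [h10]
    have h5 : |(∫ y, Q y ∂(A.law V ())) - ∫ x, f x ∂(gibbs V)| ≤
        |(∫ y, Q y ∂(A.law V ())) - ∫ y, Q y ∂(gibbs V)| +
        |(∫ y, Q y ∂(gibbs V)) - ∫ x, f x ∂(gibbs V)| := abs_sub_le _ _ _
    linarith only [h3, h1, h2, h4, h5, hε]
  have hc : A1.cost = A.cost + 1 := by omega
  rw [hc] at hgood
  exact hgood

/-- Samplers for every dimension: the error and the cost are governed by `D ≥ d`. -/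
theorem main_wd_D (hN : NodesStatement) (hDn : DownStatement) {ε₀ : ℝ} (hε₀ : 0 < ε₀) :
    ∃ D₀ : ℕ, 1 ≤ D₀ ∧ ∀ d D' : ℕ, 1 ≤ d → d ≤ D' → D₀ ≤ D' →
      ∃ A : Samp d Unit (Eu d), ((A.cost + 1 : ℕ) : ℝ) ≤ (D' : ℝ) ^ ε₀ ∧
      ∀ V ∈ PotClass d, WD (A.law V ()) (gibbs V) (1 / (200 * √(D' : ℝ))) := by
  obtain ⟨p, hp2, hpar⟩ := exists_params hε₀
  have hp : 1 ≤ p := le_trans one_le_two hp2
  obtain ⟨N, C, hC, hnodes⟩ := nodesAt_of hN p hp2
  obtain ⟨C', hC', hdown⟩ := downAt_of hDn p hp2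
  have hN1 : 1 ≤ N := mainZ_pos hp hnodes
  obtain ⟨D₁, hD₁⟩ := eventually_atTop.1 (hpar N C C' hN1 hC hC')
  refine ⟨max D₁ 1, le_max_right _ _, fun d D' hd1 hdD hDD => ?_⟩
  obtain ⟨δ, ϖ, ε, a, smax, smin, lmax, mmax, B, D, J, N₁, K, ap, hq⟩ :=
    hD₁ D' ((le_max_left _ _).trans hDD)
  have par := ap.par
  have hp1 : (1 : ℝ) ≤ p := by exact_mod_cast hp
  have hδ8 : δ ≤ 1 / 8 := by
    refine par.hδ'.trans ?_
    rw [div_le_div_iff₀ (by positivity) (by norm_num)]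
    linarith only [hp1]
  have hδ := par.hδ
  have hsmax := par.hs
  have hev : ∀ l ≤ lmax, ∀ s, 0 < s → s ≤ smax → EvalAt d (δ / 4) ϖ D l mmax s a 9 B :=
    fun l hl s hs hs' => evalAt_all par hnodes hd1 ap.hJ ap.hmin ap.hmin1 ap.hJε rfl ap.ha ap.hB
      hl le_rfl hs hs'
  set ε' : ℝ := 11 * p ^ 2 * C' * a * eta ϖ lmax mmax with hε'
  have hε'0 : 0 ≤ ε' := by
    have h1 : 0 ≤ eta ϖ lmax mmax := pow_nonneg par.hϖ.le _
    have h2 : 0 ≤ a := le_trans zero_le_two par.ha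
    have h3 : 0 ≤ C' := le_trans zero_le_one hC'
    rw [hε']
    positivity
  have hstep : ∀ s ς : ℝ, 0 < s → s ≤ smax → δ * s / 4 ≤ ς ^ 2 → 0 < ς →
      ∃ A : Samp d (Eu d) (Eu d), A.cost ≤ p * B * D ^ lmax ∧ ∀ V ∈ PotClass d, ∃ Q,
        StepTo A V s ((1 - δ) * s + ς ^ 2) (1 - δ * s / 4) ε' Q := fun s ς hs hs' hς hς0 =>
    exists_downStep hp hC' hd1 par.hδ par.hδ' par.hϖ par.hϖ' par.ha par.hs' ap.mm par.i9 ap.j2
      ap.j3 ap.j4 ap.j5 hev hs hs' hς hς0 (hdown s δ hs (hs'.trans par.hs') par.hδ par.hδ')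
  have hmain : ∃ A : Samp d (Eu d) (Eu d), A.cost ≤ p * B * D ^ lmax ∧ ∀ V ∈ PotClass d, ∃ Q,
      StepTo A V smax smax (1 - δ * smax / 4) ε' Q := by
    have h0 : 0 < δ * smax := mul_pos hδ hsmax
    have hsq : √(δ * smax) ^ 2 = δ * smax := Real.sq_sqrt h0.le
    obtain ⟨A, hA, hA'⟩ := hstep smax (√(δ * smax)) hsmax le_rfl (by rw [hsq]; linarith only [h0])
      (Real.sqrt_pos.2 h0)
    refine ⟨A, hA, fun V hV => ?_⟩
    obtain ⟨Q, hQ⟩ := hA' V hV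
    exact ⟨Q, mainZ_step hQ (by rw [hsq]; ring) le_rfl⟩
  have hdesc : ∀ k < K, ∃ A : Samp d (Eu d) (Eu d), A.cost ≤ p * B * D ^ lmax ∧
      ∀ V ∈ PotClass d, ∃ Q,
        StepTo A V ((1 - δ / 2) ^ k * smax) ((1 - δ / 2) ^ (k + 1) * smax) 1 ε' Q := by
    intro k _
    have h1 : 0 < 1 - δ / 2 := by linarith only [hδ8]
    have h2 : (1 - δ / 2) ^ k ≤ 1 := pow_le_one₀ h1.le (by linarith only [hδ])
    have hs : 0 < (1 - δ / 2) ^ k * smax := mul_pos (pow_pos h1 k) hsmax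
    have hs' : (1 - δ / 2) ^ k * smax ≤ smax := mul_le_of_le_one_left hsmax.le h2
    have h0 : 0 < δ * ((1 - δ / 2) ^ k * smax) / 2 := by positivity
    have hsq : √(δ * ((1 - δ / 2) ^ k * smax) / 2) ^ 2 = δ * ((1 - δ / 2) ^ k * smax) / 2 :=
      Real.sq_sqrt h0.le
    obtain ⟨A, hA, hA'⟩ := hstep _ (√(δ * ((1 - δ / 2) ^ k * smax) / 2)) hs hs'
      (by rw [hsq]; linarith only [h0]) (Real.sqrt_pos.2 h0)
    refine ⟨A, hA, fun V hV => ?_⟩
    obtain ⟨Q, hQ⟩ := hA' V hV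
    refine ⟨Q, mainZ_step hQ ?_ ?_⟩
    · rw [hsq, pow_succ]
      ring
    · have : 0 < δ * ((1 - δ / 2) ^ k * smax) / 4 := by positivity
      linarith only [this]
  have hdL : (d : ℝ) ≤ (D' : ℝ) := by exact_mod_cast hdD
  have hdL1 : √(d : ℝ) ≤ √(D' : ℝ) := Real.sqrt_le_sqrt hdL
  have k3 := ap.k3
  have hfac : 0 ≤ 1 - δ * smax / 4 := by
    have h1 : δ * smax ≤ 1 / 8 * (1 / 4) := mul_le_mul hδ8 par.hs' hsmax.le (by norm_num)
    linarith only [h1]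
  have hfac2 : 0 ≤ 1 - δ / 2 := by linarith only [hδ8]
  have k3' : 2 * √d * (1 - δ * smax / 4) ^ N₁ + ε' * √d * (6 * N₁ + 20 * K)
      + √((1 - δ / 2) ^ K * smax * d) ≤ 1 / (200 * √(D' : ℝ)) := by
    refine le_trans ?_ k3
    have a1 : 2 * √(d : ℝ) * (1 - δ * smax / 4) ^ N₁ ≤
        2 * √(D' : ℝ) * (1 - δ * smax / 4) ^ N₁ :=
      mul_le_mul_of_nonneg_right (by linarith only [hdL1]) (pow_nonneg hfac _)
    have a2 : ε' * √(d : ℝ) * (6 * N₁ + 20 * K) ≤ ε' * √(D' : ℝ) * (6 * N₁ + 20 * K) :=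
      mul_le_mul_of_nonneg_right (mul_le_mul_of_nonneg_left hdL1 hε'0) (by positivity)
    have a3 : √((1 - δ / 2) ^ K * smax * d) ≤ √((1 - δ / 2) ^ K * smax * (D' : ℝ)) :=
      Real.sqrt_le_sqrt (mul_le_mul_of_nonneg_left hdL
        (mul_nonneg (pow_nonneg hfac2 _) hsmax.le))
    exact add_le_add (add_le_add a1 a2) a3
  obtain ⟨A, hA, hA'⟩ := exists_chain (c₀ := p * B * D ^ lmax) (N₁ := N₁) (K := K) hd1 par.hδ
    hδ8 par.hs par.hs' hε'0 ap.k1 ap.k2 hmain hdesc k3'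
  refine ⟨A, ?_, hA'⟩
  have hcost : ((A.cost + 1 : ℕ) : ℝ) ≤ (((N₁ + K) * (p * B * D ^ lmax) + 1 : ℕ) : ℝ) := by
    exact_mod_cast Nat.add_le_add_right hA 1
  exact hcost.trans hq

end Vale.Agent.P347.S

namespace Vale.Agent.P347.K

open Vale.Agent.P347.S

/-- **M1**: `C (d / ε) ^ δ` queries suffice on `V_d`, for all `d` and `ε`. -/
theorem m1 : M1 := by
  intro δ hδ
  obtain ⟨D₀, hD₀, h⟩ := main_wd_D Z.nodes Z.down (ε₀ := δ / 3) (by positivity)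
  have hD₀r : (1 : ℝ) ≤ D₀ := by exact_mod_cast hD₀
  refine ⟨(2 * D₀ : ℝ) ^ (δ / 3), Real.one_le_rpow (by linarith) (by positivity),
    fun d ε hd hε hε1 => ?_⟩
  have hd0 : (1 : ℝ) ≤ d := by exact_mod_cast hd
  have hx : 1 ≤ (d : ℝ) / ε := by rw [le_div_iff₀ hε]; linarith
  have hx3 : 1 ≤ ((d : ℝ) / ε) ^ 3 := one_le_pow₀ hx
  -- the auxiliary dimension
  set D' : ℕ := D₀ * ⌈((d : ℝ) / ε) ^ 3⌉₊ with hD'
  have hceil := Nat.le_ceil (((d : ℝ) / ε) ^ 3)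
  have hceil2 := (Nat.ceil_lt_add_one (show 0 ≤ ((d : ℝ) / ε) ^ 3 by positivity)).le
  have hc1 : 1 ≤ ⌈((d : ℝ) / ε) ^ 3⌉₊ := Nat.one_le_ceil_iff.2 (by linarith)
  have hD'r : (D' : ℝ) = D₀ * (⌈((d : ℝ) / ε) ^ 3⌉₊ : ℕ) := by rw [hD']; push_cast; ring
  have hlow : ((d : ℝ) / ε) ^ 3 ≤ D' := by
    rw [hD'r]
    have : (1 : ℝ) * (⌈((d : ℝ) / ε) ^ 3⌉₊ : ℕ) ≤ D₀ * (⌈((d : ℝ) / ε) ^ 3⌉₊ : ℕ) :=
      mul_le_mul_of_nonneg_right hD₀r (Nat.cast_nonneg _)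
    linarith
  have hup : (D' : ℝ) ≤ 2 * D₀ * ((d : ℝ) / ε) ^ 3 := by
    rw [hD'r]
    have : (⌈((d : ℝ) / ε) ^ 3⌉₊ : ℝ) ≤ 2 * ((d : ℝ) / ε) ^ 3 := by linarith
    calc (D₀ : ℝ) * (⌈((d : ℝ) / ε) ^ 3⌉₊ : ℕ) ≤ D₀ * (2 * ((d : ℝ) / ε) ^ 3) :=
          mul_le_mul_of_nonneg_left this (by linarith)
      _ = _ := by ring
  have hdε : (d : ℝ) ≤ ((d : ℝ) / ε) ^ 3 := by
    have h1 : (d : ℝ) ≤ (d : ℝ) / ε := by
      rw [le_div_iff₀ hε]
      nlinarith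
    calc (d : ℝ) ≤ (d : ℝ) / ε := h1
      _ = ((d : ℝ) / ε) ^ 1 := (pow_one _).symm
      _ ≤ ((d : ℝ) / ε) ^ 3 := pow_le_pow_right₀ hx (by norm_num)
  have hdD : d ≤ D' := by
    have : (d : ℝ) ≤ D' := hdε.trans hlow
    exact_mod_cast this
  have hDD : D₀ ≤ D' := by
    rw [hD']
    exact Nat.le_mul_of_pos_right _ (by omega)
  obtain ⟨A, hc, hA⟩ := h d D' hd hdD hDD
  have hD3 : (d : ℝ) ≤ ε ^ 3 * D' := by
    have h1 : ε ^ 3 * ((d : ℝ) / ε) ^ 3 ≤ ε ^ 3 * D' :=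
      mul_le_mul_of_nonneg_left hlow (by positivity)
    have h2 : ε ^ 3 * ((d : ℝ) / ε) ^ 3 = (d : ℝ) ^ 3 := by
      rw [← mul_pow, mul_div_cancel₀ _ hε.ne']
    have h3 : (d : ℝ) ≤ (d : ℝ) ^ 3 := by
      calc (d : ℝ) = (d : ℝ) ^ 1 := (pow_one _).symm
        _ ≤ (d : ℝ) ^ 3 := pow_le_pow_right₀ hd0 (by norm_num)
    linarith
  obtain ⟨A', hA'⟩ := exists_within_eps hd hε hε1 hD3 le_rfl A hA
  refine ⟨A.cost + 1, hc.trans ?_, A', hA'⟩
  calc (D' : ℝ) ^ (δ / 3) ≤ (2 * D₀ * ((d : ℝ) / ε) ^ 3) ^ (δ / 3) :=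
        Real.rpow_le_rpow (Nat.cast_nonneg _) hup (by positivity)
    _ = (2 * D₀ : ℝ) ^ (δ / 3) * (((d : ℝ) / ε) ^ 3) ^ (δ / 3) :=
        Real.mul_rpow (by positivity) (by positivity)
    _ = (2 * D₀ : ℝ) ^ (δ / 3) * ((d : ℝ) / ε) ^ δ := by
        congr 1
        rw [← Real.rpow_natCast ((d : ℝ) / ε) 3, ← Real.rpow_mul (by positivity)]
        congr 1
        push_cast
        ring

end Vale.Agent.P347.K
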