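import Vale.Agent.P347.H941.KDefs

/-! Change of variables for the inner sampler (helper941, P347). -/

open MeasureTheory Filter Module Set
open scoped RealInnerProductSpace
open Vale.Agent.P347.Z Vale.Agent.P347.S

namespace Vale.Agent.P347.K

/-- The law of `(u - c) √(1 + κ)` for `u` with potential `U_y`. -/
theorem cov (d : ℕ) (κ : ℝ) (hκ : 1 ≤ κ) (V : Eu d → ℝ) (y c : Eu d) (f : Eu d → ℝ) :
    ∫ u, f u ∂(gibbs (post V (1 / κ) y)) =
      ∫ u, f (c + (√(1 + κ))⁻¹ • u)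
        ∂(gibbs (fun u => sub V κ y c u + ⟪(√(1 + κ))⁻¹ • gradU V κ y c, u⟫)) := by
  have hκ0 : 0 < κ := by linarith
  set U : Eu d → ℝ := post V (1 / κ) y with hU
  have hs : √(1 / (1 + κ)) = (√(1 + κ))⁻¹ := by
    rw [one_div, Real.sqrt_inv]
  have e1 : (fun u => sub V κ y c u + ⟪(√(1 + κ))⁻¹ • gradU V κ y c, u⟫) =
      fun u => U (c + (√(1 + κ))⁻¹ • u) + (-V c - κ / 2 * ‖c - y‖ ^ 2) := by
    funext u
    simp only [sub, hU, post, inner_smul_left, inner_smul_right, conj_trivial]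
    have : ‖c + (√(1 + κ))⁻¹ • u - y‖ ^ 2 / (2 * (1 / κ)) =
        κ / 2 * ‖c + (√(1 + κ))⁻¹ • u - y‖ ^ 2 := by
      field_simp
    rw [this]
    ring
  rw [e1, gibbs_add_const (fun u => U (c + (√(1 + κ))⁻¹ • u)), gibbs_integral, gibbs_integral]
  have h1 := vol_affine (1 / (1 + κ)) c fun x => Real.exp (-U x)
  have h2 := vol_affine (1 / (1 + κ)) c fun x => Real.exp (-U x) • f x
  rw [hs] at h1 h2
  rw [h1, h2]
  set a := |((√(1 + κ))⁻¹ ^ finrank ℝ (Eu d))⁻¹| with ha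
  have ha0 : a ≠ 0 := by
    have h0 : 0 < √(1 + κ) := Real.sqrt_pos.2 (by linarith)
    rw [ha]
    positivity
  rw [smul_smul]
  congr 1
  rw [smul_eq_mul, mul_inv]
  field_simp

end Vale.Agent.P347.K
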