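import Vale.Agent.P347.Stmt

/-! Definitions for the hand-in `P347.EveryConditionNumber` (helper941). -/

open MeasureTheory

namespace Vale.Agent.P347

/-- The `C^2` potentials on a Euclidean space with Hessian between `I` and `κ I` everywhere and
`‖∇V(0)‖ ≤ R`; the value at `0` and the place of the minimum are not prescribed. -/
def WellCondOn (E : Type) [NormedAddCommGroup E] [InnerProductSpace ℝ E] [CompleteSpace E]
    (κ R : ℝ) : Set (E → ℝ) :=
  {V | ContDiff ℝ 2 V ∧ ‖gradient V 0‖ ≤ R ∧
    ∀ x v : E, ‖v‖ ^ 2 ≤ fderiv ℝ (fderiv ℝ V) x v v ∧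
      fderiv ℝ (fderiv ℝ V) x v v ≤ κ * ‖v‖ ^ 2}

/-- The class in dimension `d`. The class `V_d` of the problem is contained in
`WellCond d 2 0`. -/
def WellCond (d : ℕ) (κ R : ℝ) : Set (Eu d → ℝ) := WellCondOn (Eu d) κ R

/-- `A` samples from the Gibbs law of every potential of the class `K` within total
variation `ε`. -/
def Algo.SamplesWithin {d q : ℕ} (A : Algo d q) (K : Set (Eu d → ℝ)) (ε : ℝ) : Prop :=
  ∀ V ∈ K, ∀ B : Set (Eu d), MeasurableSet B →
    |(A.law V).real B - (target V).real B| ≤ ε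

end Vale.Agent.P347
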