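import Vale.Agent.P347.H941.Acc

/-! One sequence of algorithms with superpolynomial accuracy (helper941, P347). -/

open MeasureTheory Filter
open scoped Topology

namespace Vale.Agent.P347

/-- Diagonal choice of an index tending to infinity. -/
theorem exists_diag {P : ℕ → ℕ → Prop} (hP : ∀ k, ∀ᶠ d : ℕ in atTop, P k d) :
    ∃ k : ℕ → ℕ, Tendsto k atTop atTop ∧ ∀ᶠ d : ℕ in atTop, P (k d) d := by
  choose N hN using fun k => eventually_atTop.1 (hP k)
  -- a monotone bound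
  let M : ℕ → ℕ := fun k => ∑ j ∈ Finset.range (k + 1), N j + k
  have hNM : ∀ k, N k ≤ M k := fun k => by
    have h : N k ≤ ∑ j ∈ Finset.range (k + 1), N j :=
      Finset.single_le_sum (f := N) (fun _ _ => Nat.zero_le _) (Finset.self_mem_range_succ k)
    exact h.trans (Nat.le_add_right _ _)
  have hkM : ∀ k, k ≤ M k := fun k => Nat.le_add_left _ _
  refine ⟨fun d => Nat.findGreatest (fun k => M k ≤ d) d, ?_, ?_⟩
  · refine tendsto_atTop.2 fun b => ?_
    filter_upwards [eventually_ge_atTop (M b)] with d hd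
    exact Nat.le_findGreatest ((hkM b).trans hd) hd
  · filter_upwards [eventually_ge_atTop (M 0)] with d hd
    have h : M (Nat.findGreatest (fun k => M k ≤ d) d) ≤ d :=
      Nat.findGreatest_spec (P := fun k => M k ≤ d) (Nat.zero_le d) hd
    exact hN _ _ ((hNM _).trans h)

/-- An algorithm without queries. -/
noncomputable def trivAlgo (d : ℕ) : Algo d 0 where
  Ω := Unit
  mΩ := inferInstance
  sΩ := inferInstance
  P := Measure.dirac ()
  prob := inferInstance
  query := fun k => k.elim0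
  query_meas := fun k => k.elim0
  out := fun _ => 0
  out_meas := measurable_const

theorem trivAlgo_within (d : ℕ) : (trivAlgo d).Within 1 := by
  intro V hV B hB
  have h1 : (trivAlgo d).law V = Measure.dirac 0 := by
    show (Measure.dirac ()).map (fun _ => (0 : Eu d)) = _
    simp
  have hp : IsProbabilityMeasure (target V) := by
    rw [target_eq_gibbs hV]
    exact Vale.Agent.P347.S.gibbs_prob hV
  rw [h1]
  have a1 : (Measure.dirac (0 : Eu d)).real B ≤ 1 := measureReal_le_one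
  have a2 : (target V).real B ≤ 1 := measureReal_le_one
  have a3 : 0 ≤ (Measure.dirac (0 : Eu d)).real B := measureReal_nonneg
  have a4 : 0 ≤ (target V).real B := measureReal_nonneg
  rw [abs_le]
  constructor <;> linarith only [a1, a2, a3, a4]

theorem tendsto_log_div {f : ℕ → ℕ} (h : ∀ δ : ℝ, 0 < δ → ∀ᶠ d : ℕ in atTop,
    (f d : ℝ) ≤ (d : ℝ) ^ δ) :
    Tendsto (fun d : ℕ => Real.log (f d) / Real.log d) atTop (nhds 0) := by
  have hlog : ∀ q : ℕ, 0 ≤ Real.log (q : ℝ) := by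
    intro q
    rcases Nat.eq_zero_or_pos q with rfl | hq
    · simp
    · exact Real.log_nonneg (by exact_mod_cast hq)
  refine tendsto_order.2 ⟨fun b hb => Eventually.of_forall fun d =>
    lt_of_lt_of_le hb (div_nonneg (hlog _) (hlog _)), fun b hb => ?_⟩
  filter_upwards [h (b / 2) (half_pos hb), eventually_ge_atTop 2] with d hQ hd2
  have hd0 : (1 : ℝ) < d := by exact_mod_cast hd2
  have hl : 0 < Real.log d := Real.log_pos hd0
  have h2 : Real.log (f d) / Real.log d ≤ b / 2 := by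
    rw [div_le_iff₀ hl]
    rcases Nat.eq_zero_or_pos (f d) with hq0 | hq0
    · rw [hq0]
      simp only [Nat.cast_zero, Real.log_zero]
      positivity
    · have hq' : (0 : ℝ) < f d := by exact_mod_cast hq0
      have h3 := Real.log_le_log hq' hQ
      rwa [Real.log_rpow (by linarith)] at h3
  linarith

/-- The main theorem with the accuracy `d ^ (-K)`. -/
theorem acc_exists (K : ℕ) {δ : ℝ} (hδ : 0 < δ) :
    ∀ᶠ d : ℕ in atTop, ∃ q : ℕ, (q : ℝ) ≤ (d : ℝ) ^ δ ∧
      ∃ A : Algo d q, A.Within (1 / (d : ℝ) ^ K) := S.main_acc K hδ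

theorem good_exists {δ : ℝ} (hδ : 0 < δ) :
    ∀ᶠ d : ℕ in atTop, ∃ q : ℕ, (q : ℝ) ≤ (d : ℝ) ^ δ ∧ ∃ A : Algo d q, A.Good := by
  filter_upwards [acc_exists 1 hδ, eventually_ge_atTop 10] with d hd h10
  obtain ⟨q, hq, A, hA⟩ := hd
  refine ⟨q, hq, A, fun V hV B hB => (hA V hV B hB).trans ?_⟩
  have h : (10 : ℝ) ≤ d := by exact_mod_cast h10
  rw [pow_one]
  exact one_div_le_one_div_of_le (by norm_num) h

theorem Q_le {δ : ℝ} (hδ : 0 < δ) : ∀ᶠ d : ℕ in atTop, (Q d : ℝ) ≤ (d : ℝ) ^ δ := by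
  filter_upwards [good_exists hδ] with d hd
  obtain ⟨q, hq, A, hA⟩ := hd
  have h1 : Q d ≤ q := Nat.sInf_le (show q ∈ {q | ∃ A : Algo d q, A.Good} from ⟨A, hA⟩)
  exact le_trans (by exact_mod_cast h1) hq

theorem QAt_le (K : ℕ) {δ : ℝ} (hδ : 0 < δ) :
    ∀ᶠ d : ℕ in atTop, (QAt d (1 / (d : ℝ) ^ K) : ℝ) ≤ (d : ℝ) ^ δ := by
  filter_upwards [acc_exists K hδ] with d hd
  obtain ⟨q, hq, A, hA⟩ := hd
  have h1 : QAt d (1 / (d : ℝ) ^ K) ≤ q :=
    Nat.sInf_le (show q ∈ {q | ∃ A : Algo d q, A.Within (1 / (d : ℝ) ^ K)} from ⟨A, hA⟩)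
  exact le_trans (by exact_mod_cast h1) hq

/-- One sequence of algorithms: subpolynomial cost and superpolynomial accuracy. -/
theorem one_sequence : ∃ (q : ℕ → ℕ) (A : ∀ d, Algo d (q d)) (ε : ℕ → ℝ),
    (∀ d, (A d).Within (ε d)) ∧
    Tendsto (fun d : ℕ => Real.log (q d) / Real.log d) atTop (nhds 0) ∧
    ∀ K : ℕ, Tendsto (fun d : ℕ => (d : ℝ) ^ K * ε d) atTop (nhds 0) := by
  obtain ⟨k, hk, hev⟩ := exists_diag (P := fun k d => ∃ q : ℕ,
      (q : ℝ) ≤ (d : ℝ) ^ (1 / ((k : ℝ) + 1)) ∧ ∃ A : Algo d q, A.Within (1 / (d : ℝ) ^ k))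
    (fun k => acc_exists k (by positivity))
  -- a choice for every `d`
  have hall : ∀ d : ℕ, ∃ (q : ℕ) (A : Algo d q) (ε : ℝ), A.Within ε ∧
      ((∃ q : ℕ, (q : ℝ) ≤ (d : ℝ) ^ (1 / ((k d : ℝ) + 1)) ∧
        ∃ A : Algo d q, A.Within (1 / (d : ℝ) ^ (k d))) →
        (q : ℝ) ≤ (d : ℝ) ^ (1 / ((k d : ℝ) + 1)) ∧ ε = 1 / (d : ℝ) ^ (k d)) := by
    intro d
    by_cases h : ∃ q : ℕ, (q : ℝ) ≤ (d : ℝ) ^ (1 / ((k d : ℝ) + 1)) ∧
        ∃ A : Algo d q, A.Within (1 / (d : ℝ) ^ (k d))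
    · obtain ⟨q, hq, A, hA⟩ := h
      exact ⟨q, A, _, hA, fun _ => ⟨hq, rfl⟩⟩
    · exact ⟨0, trivAlgo d, 1, trivAlgo_within d, fun h' => absurd h' h⟩
  choose q A ε hA hq using hall
  have hk' : Tendsto (fun d => (k d : ℝ)) atTop atTop := tendsto_natCast_atTop_atTop.comp hk
  refine ⟨q, A, ε, hA, tendsto_log_div fun δ hδ => ?_, fun K => ?_⟩
  · filter_upwards [hev, hk'.eventually_ge_atTop (1 / δ), eventually_ge_atTop 1] with d h1 h2 h3
    refine (hq d h1).1.trans (Real.rpow_le_rpow_of_exponent_le (by exact_mod_cast h3) ?_)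
    rw [div_le_iff₀ (by positivity)]
    have h4 : 1 ≤ δ * (k d : ℝ) := by
      rw [div_le_iff₀ hδ] at h2
      linarith only [h2]
    linarith only [h4, hδ]
  · have hinv : Tendsto (fun d : ℕ => ((d : ℝ))⁻¹) atTop (nhds 0) :=
      tendsto_inv_atTop_zero.comp tendsto_natCast_atTop_atTop
    refine squeeze_zero' ?_ ?_ hinv
    · filter_upwards [hev] with d h1
      rw [(hq d h1).2]
      positivity
    · filter_upwards [hev, hk.eventually_ge_atTop (K + 1), eventually_ge_atTop 1] with d h1 h2 h3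
      rw [(hq d h1).2]
      have hd1 : (1 : ℝ) ≤ d := by exact_mod_cast h3
      have hd0 : (0 : ℝ) < d := by linarith only [hd1]
      have h4 : (d : ℝ) ^ (K + 1) ≤ (d : ℝ) ^ (k d) := pow_le_pow_right₀ hd1 h2
      rw [mul_one_div, div_le_iff₀ (by positivity), inv_mul_eq_div, le_div_iff₀ hd0, ← pow_succ]
      exact h4

end Vale.Agent.P347
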