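import Vale.Agent.P347.H941.M4
import Vale.Agent.P347.H300.Plumb
import Vale.Agent.P347.H710.M5

/-! Every condition number, all accuracies (P347, helper941 with 300, 473, 710). -/

namespace Vale.Agent.P347.K

theorem full : ∀ δ : ℝ, 0 < δ → ∃ C : ℝ, 1 ≤ C ∧ ∀ (d : ℕ) (κ R ε : ℝ), 1 ≤ d → 1 ≤ κ → 0 ≤ R →
    0 < ε → ε ≤ 1 → ∃ q : ℕ, (q : ℝ) ≤ C * κ * (κ * d * (1 + R) / ε) ^ δ ∧
      ∃ A : Algo d q, A.WithinR κ R ε :=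
  main_of H300.m2 I3.m3 m4 m5

end Vale.Agent.P347.K
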