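import Vale.Agent.P347.H941.KDefs

/-! Total variation cost of a linear tilt of a strongly log-concave law (helper941, P347). -/

open MeasureTheory Filter Module
open scoped RealInnerProductSpace

namespace Vale.Agent.P347.K

variable {E : Type*} [NormedAddCommGroup E] [InnerProductSpace ℝ E] [FiniteDimensional ℝ E]
  [MeasurableSpace E] [BorelSpace E]

theorem adm_tilt {U : E → ℝ} (hU : Adm U) (h : E) : Adm (fun x => U x + ⟪h, x⟫) := by
  obtain ⟨a, ha, b, hab⟩ := hU.low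
  have hc := hU.cont
  refine ⟨by fun_prop, a / 2, by positivity, b + ‖h‖ ^ 2 / (2 * a), fun x => ?_⟩
  have h1 := hab x
  have h2 : -(‖h‖ * ‖x‖) ≤ ⟪h, x⟫ := (abs_le.1 (abs_real_inner_le_norm h x)).1
  have h3 : ‖h‖ * ‖x‖ ≤ a / 2 * ‖x‖ ^ 2 + ‖h‖ ^ 2 / (2 * a) := by
    have h4 : 0 ≤ (a * ‖x‖ - ‖h‖) ^ 2 / (2 * a) := by positivity
    have h5 : (a * ‖x‖ - ‖h‖) ^ 2 / (2 * a) =
        a / 2 * ‖x‖ ^ 2 + ‖h‖ ^ 2 / (2 * a) - ‖h‖ * ‖x‖ := by
      field_simp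
      ring
    linarith
  linarith

theorem midSC_tilt {U : E → ℝ} {m : ℝ} (hU : MidSC m U) (h : E) :
    MidSC m (fun x => U x + ⟪h, x⟫) := by
  intro x y
  have h1 := hU x y
  have h2 : ⟪h, (2 : ℝ)⁻¹ • (x + y)⟫ = (⟪h, x⟫ + ⟪h, y⟫) / 2 := by
    rw [real_inner_smul_right, inner_add_right]; ring
  show U ((2 : ℝ)⁻¹ • (x + y)) + ⟪h, (2 : ℝ)⁻¹ • (x + y)⟫ ≤ _
  rw [h2]
  linarith

theorem integrable_exp_lin {U : E → ℝ} (hU : Adm U) (v : E) (c : ℝ) :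
    Integrable (fun x => Real.exp (⟪v, x⟫ + c)) (gibbs U) := by
  obtain ⟨a, ha, b, hab⟩ := hU.low
  refine Adm.integrable_exp_mul ha hU.cont hab (f := fun x => ⟪v, x⟫ + c) (by fun_prop)
    (c := a / 2) (C := ‖v‖ ^ 2 / (2 * a) + c) (by linarith) fun x => ?_
  have h2 : ⟪v, x⟫ ≤ ‖v‖ * ‖x‖ := real_inner_le_norm v x
  have h3 : ‖v‖ * ‖x‖ ≤ a / 2 * ‖x‖ ^ 2 + ‖v‖ ^ 2 / (2 * a) := by
    have h4 : 0 ≤ (a * ‖x‖ - ‖v‖) ^ 2 / (2 * a) := by positivity
    have h5 : (a * ‖x‖ - ‖v‖) ^ 2 / (2 * a) =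
        a / 2 * ‖x‖ ^ 2 + ‖v‖ ^ 2 / (2 * a) - ‖v‖ * ‖x‖ := by
      field_simp
      ring
    linarith
  linarith

/-- The tilted law in terms of the original law. -/
theorem gibbs_tilt {U : E → ℝ} (hU : Adm U) (h : E) (c : ℝ) (f : E → ℝ) :
    (∫ x, Real.exp (⟪-h, x⟫ + c) ∂(gibbs U)) * ∫ x, f x ∂(gibbs (fun x => U x + ⟪h, x⟫)) =
      ∫ x, Real.exp (⟪-h, x⟫ + c) * f x ∂(gibbs U) := by
  have hZ := hU.integral_exp_pos
  have hZ' := (adm_tilt hU h).integral_exp_pos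
  rw [gibbs_integral f, gibbs_integral (fun x => Real.exp (⟪-h, x⟫ + c)), gibbs_integral]
  simp only [smul_eq_mul]
  have e1 : ∀ x, Real.exp (-U x) * Real.exp (⟪-h, x⟫ + c) =
      Real.exp c * Real.exp (-(U x + ⟪h, x⟫)) := by
    intro x
    rw [← Real.exp_add, ← Real.exp_add, inner_neg_left]
    congr 1
    ring
  have e2 : ∀ x, Real.exp (-U x) * (Real.exp (⟪-h, x⟫ + c) * f x) =
      Real.exp c * (Real.exp (-(U x + ⟪h, x⟫)) * f x) := by
    intro x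
    rw [← mul_assoc, e1]
    ring
  simp only [e1, e2]
  rw [integral_const_mul, integral_const_mul]
  field_simp

/-- The total variation cost of a tilt. -/
theorem tilt_one {U : E → ℝ} (hU : Adm U) (hc : MidSC 1 U) (h : E) {f : E → ℝ}
    (hf : Measurable f) (bf : ∀ x, 0 ≤ f x ∧ f x ≤ 1) :
    |(∫ x, f x ∂(gibbs (fun x => U x + ⟪h, x⟫))) - ∫ x, f x ∂(gibbs U)| ≤
      1 / 2 * √(Real.exp (4 * ‖h‖ ^ 2) - 1) := by
  have hprob := hU.isProb
  have ilin : Integrable (fun x => ⟪-h, x⟫) (gibbs U) :=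
    hU.integrable ((PG.const (-h)).inner PG.id) (by fun_prop)
  set c : ℝ := -∫ x, ⟪-h, x⟫ ∂(gibbs U) with hcdef
  set w : E → ℝ := fun x => Real.exp (⟪-h, x⟫ + c) with hw
  have iw : Integrable w (gibbs U) := integrable_exp_lin hU (-h) c
  have w2 : ∀ x, w x ^ 2 = Real.exp (⟪(2 : ℝ) • (-h), x⟫ + 2 * c) := by
    intro x
    simp only [hw]
    rw [← Real.exp_nat_mul, real_inner_smul_left]
    congr 1
    push_cast
    ring
  have iw2 : Integrable (fun x => w x ^ 2) (gibbs U) := by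
    simp only [w2]
    exact integrable_exp_lin hU _ _
  have cw : Continuous w := by simp only [hw]; fun_prop
  set z : ℝ := ∫ x, w x ∂(gibbs U) with hz
  have hz1 : 1 ≤ z := by
    have i2 : Integrable (fun x => ⟪-h, x⟫ + (c + 1)) (gibbs U) := ilin.add (integrable_const _)
    have h1 : ∫ x, (⟪-h, x⟫ + (c + 1)) ∂(gibbs U) ≤ z := by
      refine integral_mono i2 iw fun x => ?_
      have := Real.add_one_le_exp (⟪-h, x⟫ + c)
      simp only [hw]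
      linarith
    rw [integral_add ilin (integrable_const _), integral_const, probReal_univ,
      one_smul, hcdef] at h1
    linarith
  -- the second moment
  have hw2 : ∫ x, w x ^ 2 ∂(gibbs U) ≤ Real.exp (4 * ‖h‖ ^ 2) := by
    have h1 := exp_lip one_pos hU hc (f := fun x => ⟪(2 : ℝ) • (-h), x⟫) (L := 2 * ‖h‖)
      (fun x y => by
        rw [← inner_sub_right]
        refine (abs_real_inner_le_norm _ _).trans (le_of_eq ?_)
        rw [norm_smul, norm_neg, Real.norm_eq_abs, abs_of_pos (by norm_num : (0 : ℝ) < 2)])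
    have h2 : ∫ y, ⟪(2 : ℝ) • (-h), y⟫ ∂(gibbs U) = -(2 * c) := by
      have : ∀ y : E, ⟪(2 : ℝ) • (-h), y⟫ = 2 * ⟪-h, y⟫ := fun y => real_inner_smul_left _ _ _
      simp only [this]
      rw [integral_const_mul, hcdef]
      ring
    rw [h2] at h1
    have h3 : (2 * ‖h‖) ^ 2 / 1 = 4 * ‖h‖ ^ 2 := by ring
    rw [h3] at h1
    refine le_trans (le_of_eq ?_) h1
    refine integral_congr_ae (Eventually.of_forall fun x => ?_)
    simp only [w2]
    congr 1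
    ring
  -- Cauchy-Schwarz
  have bf' : ∀ x, ‖f x‖ ≤ 1 := fun x => by
    rw [Real.norm_eq_abs, abs_of_nonneg (bf x).1]; exact (bf x).2
  have if1 : Integrable f (gibbs U) :=
    Integrable.of_bound hf.aestronglyMeasurable 1 (Eventually.of_forall bf')
  have if2 : Integrable (fun x => f x ^ 2) (gibbs U) :=
    Integrable.of_bound (hf.pow_const 2).aestronglyMeasurable 1 (Eventually.of_forall fun x => by
      rw [norm_pow]; exact pow_le_one₀ (norm_nonneg _) (bf' x))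
  have iwf : Integrable (fun x => w x * f x) (gibbs U) := by
    refine iw.mul_bdd (c := 1) hf.aestronglyMeasurable (Eventually.of_forall bf')
  have hcs := cov_sq_le iw if1 iw2 if2 iwf
  have hvar : (∫ x, f x ^ 2 ∂(gibbs U)) - (∫ x, f x ∂(gibbs U)) ^ 2 ≤ 1 / 4 := by
    have h1 : ∫ x, f x ^ 2 ∂(gibbs U) ≤ ∫ x, f x ∂(gibbs U) :=
      integral_mono if2 if1 fun x => by
        have := bf x
        show f x ^ 2 ≤ f x
        nlinarith [this.1, this.2]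
    nlinarith [sq_nonneg ((∫ x, f x ∂(gibbs U)) - 1 / 2)]
  have hvar0 : 0 ≤ (∫ x, f x ^ 2 ∂(gibbs U)) - (∫ x, f x ∂(gibbs U)) ^ 2 := var_nonneg if1 if2
  have hwvar0 : 0 ≤ (∫ x, w x ^ 2 ∂(gibbs U)) - z ^ 2 := var_nonneg iw iw2
  rw [← hz] at hcs
  have htilt := gibbs_tilt hU h c f
  set A : ℝ := ∫ x, f x ∂(gibbs (fun x => U x + ⟪h, x⟫)) with hA
  set B : ℝ := ∫ x, f x ∂(gibbs U) with hB
  have e1 : ∫ x, w x * f x ∂(gibbs U) = z * A := htilt.symm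
  rw [e1] at hcs
  have hz0 : 0 < z := by linarith
  have h5 : z ^ 2 * (A - B) ^ 2 ≤ (Real.exp (4 * ‖h‖ ^ 2) - z ^ 2) * (1 / 4) := by
    have h6 : (z * A - z * B) ^ 2 = z ^ 2 * (A - B) ^ 2 := by ring
    rw [← h6]
    refine hcs.trans ?_
    calc ((∫ x, w x ^ 2 ∂(gibbs U)) - z ^ 2) * ((∫ x, f x ^ 2 ∂(gibbs U)) - B ^ 2)
        ≤ ((∫ x, w x ^ 2 ∂(gibbs U)) - z ^ 2) * (1 / 4) :=
          mul_le_mul_of_nonneg_left hvar hwvar0
      _ ≤ _ := mul_le_mul_of_nonneg_right (by linarith) (by norm_num)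
  have h7 : (A - B) ^ 2 ≤ (Real.exp (4 * ‖h‖ ^ 2) - 1) * (1 / 4) := by
    have hz2 : 1 ≤ z ^ 2 := one_le_pow₀ hz1
    have hE : 0 ≤ Real.exp (4 * ‖h‖ ^ 2) - 1 := by
      have := Real.one_le_exp (show 0 ≤ 4 * ‖h‖ ^ 2 by positivity)
      linarith
    have h8 : z ^ 2 * (A - B) ^ 2 ≤ z ^ 2 * ((Real.exp (4 * ‖h‖ ^ 2) - 1) * (1 / 4)) := by
      refine h5.trans ?_
      nlinarith
    exact le_of_mul_le_mul_left h8 (by positivity)
  have hE : 0 ≤ Real.exp (4 * ‖h‖ ^ 2) - 1 := by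
    have := Real.one_le_exp (show 0 ≤ 4 * ‖h‖ ^ 2 by positivity)
    linarith
  refine abs_le_of_sq_le_sq ?_ (by positivity)
  rw [mul_pow, Real.sq_sqrt hE]
  linarith

/-- The total variation cost of a tilt by `g`, in a form that is linear in a bound `b`. -/
theorem tilt_two {U : E → ℝ} (hU : Adm U) (hc : MidSC 1 U) (g : E) {b : ℝ}
    (hb : √2 * ‖g‖ ≤ b) {f : E → ℝ} (hf : Measurable f) (bf : ∀ x, 0 ≤ f x ∧ f x ≤ 1) :
    |(∫ x, f x ∂(gibbs (fun x => U x + ⟪g, x⟫))) - ∫ x, f x ∂(gibbs U)| ≤ b := by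
  have hprob := hU.isProb
  have hprob' := (adm_tilt hU g).isProb
  have hb0 : 0 ≤ b := le_trans (by positivity) hb
  have hbd : ∀ μ : Measure E, IsProbabilityMeasure μ → 0 ≤ ∫ x, f x ∂μ ∧ ∫ x, f x ∂μ ≤ 1 := by
    intro μ hμ
    refine ⟨integral_nonneg fun x => (bf x).1, ?_⟩
    have h1 := norm_integral_le_of_norm_le_const (μ := μ) (f := f) (C := 1)
      (Eventually.of_forall fun x => by
        rw [Real.norm_eq_abs, abs_of_nonneg (bf x).1]; exact (bf x).2)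
    rw [probReal_univ, mul_one, Real.norm_eq_abs] at h1
    exact (le_abs_self _).trans h1
  by_cases h1 : 1 ≤ b
  · have a1 := hbd _ hprob
    have a2 := hbd _ hprob'
    refine le_trans ?_ h1
    rw [abs_le]
    constructor <;> linarith [a1.1, a1.2, a2.1, a2.2]
  rw [not_le] at h1
  set h : E := (2 : ℝ)⁻¹ • g with hh
  have hn : ‖h‖ = ‖g‖ / 2 := by
    rw [hh, norm_smul, Real.norm_eq_abs, abs_of_pos (by norm_num)]; ring
  have t1 := tilt_one hU hc h hf bf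
  have t2 := tilt_one (adm_tilt hU h) (midSC_tilt hc h) h hf bf
  have e1 : (fun x : E => (U x + ⟪h, x⟫) + ⟪h, x⟫) = fun x => U x + ⟪g, x⟫ := by
    funext x
    rw [hh, real_inner_smul_left]
    ring
  rw [e1] at t2
  have hgb : 2 * ‖g‖ ^ 2 ≤ b ^ 2 := by
    have h2 : (√2 * ‖g‖) ^ 2 ≤ b ^ 2 := pow_le_pow_left₀ (by positivity) hb 2
    rwa [mul_pow, Real.sq_sqrt (by norm_num)] at h2
  have hexp : Real.exp (4 * ‖h‖ ^ 2) - 1 ≤ b ^ 2 := by
    have h2 : 4 * ‖h‖ ^ 2 = ‖g‖ ^ 2 := by rw [hn]; ring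
    rw [h2]
    have h3 : ‖g‖ ^ 2 ≤ 1 := by nlinarith
    have h4 : |Real.exp (‖g‖ ^ 2) - 1| ≤ 2 * |‖g‖ ^ 2| :=
      Real.abs_exp_sub_one_le (by rw [abs_of_nonneg (by positivity)]; exact h3)
    rw [abs_of_nonneg (by positivity : (0 : ℝ) ≤ ‖g‖ ^ 2)] at h4
    exact (le_abs_self _).trans (h4.trans hgb)
  have hs : √(Real.exp (4 * ‖h‖ ^ 2) - 1) ≤ b := by
    rw [Real.sqrt_le_left hb0]
    exact hexp
  calc |(∫ x, f x ∂(gibbs (fun x => U x + ⟪g, x⟫))) - ∫ x, f x ∂(gibbs U)|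
      ≤ |(∫ x, f x ∂(gibbs (fun x => U x + ⟪g, x⟫))) -
          ∫ x, f x ∂(gibbs (fun x => U x + ⟪h, x⟫))| +
        |(∫ x, f x ∂(gibbs (fun x => U x + ⟪h, x⟫))) - ∫ x, f x ∂(gibbs U)| := abs_sub_le _ _ _
    _ ≤ 1 / 2 * b + 1 / 2 * b := by
        refine add_le_add (t2.trans ?_) (t1.trans ?_) <;>
        exact mul_le_mul_of_nonneg_left hs (by norm_num)
    _ = b := by ring

end Vale.Agent.P347.K
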