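import Vale.Agent.P347.H941.KMain
import Vale.Agent.P347.H941.Tilt

/-! M4 from its three pieces (helper941, P347). -/

open MeasureTheory Filter Module Set
open scoped RealInnerProductSpace
open Vale.Agent.P347.Z Vale.Agent.P347.S

namespace Vale.Agent.P347.K

variable {d q : ℕ}

/-- From Borel sets to functions with values in `[0, 1]`. -/
theorem real_to_int {X : Type*} [MeasurableSpace X] {μ ν : Measure X} [IsProbabilityMeasure μ]
    [IsProbabilityMeasure ν] {ε : ℝ}
    (h : ∀ B : Set X, MeasurableSet B → |μ.real B - ν.real B| ≤ ε) {F : X → ℝ}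
    (hF : Measurable F) (bF : ∀ x, 0 ≤ F x ∧ F x ≤ 1) :
    |(∫ x, F x ∂μ) - ∫ x, F x ∂ν| ≤ ε := by
  have key : ∀ (κ : Measure X) [IsProbabilityMeasure κ],
      ∫ x, F x ∂κ = ∫ t in Ioc (0 : ℝ) 1, κ.real {x | t < F x} := by
    intro κ hκ
    have hi : Integrable F κ := Integrable.of_bound hF.aestronglyMeasurable 1
      (Eventually.of_forall fun x => by
        rw [Real.norm_eq_abs, abs_of_nonneg (bF x).1]; exact (bF x).2)
    rw [hi.integral_eq_integral_meas_lt (Eventually.of_forall fun x => (bF x).1)]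
    rw [← Ioc_union_Ioi_eq_Ioi (zero_le_one : (0 : ℝ) ≤ 1)]
    have hz : ∀ t ∈ Ioi (1 : ℝ), κ.real {x | t < F x} = 0 := by
      intro t ht
      have : {x | t < F x} = ∅ := by
        ext x
        simp only [mem_setOf_eq, mem_empty_iff_false, iff_false, not_lt]
        exact (bF x).2.trans (le_of_lt ht)
      rw [this]
      simp
    have hanti : Antitone fun t : ℝ => κ.real {x | t < F x} := fun s t hst =>
      measureReal_mono fun x hx => lt_of_le_of_lt hst hx
    have i1 : IntegrableOn (fun t : ℝ => κ.real {x | t < F x}) (Ioc 0 1) := by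
      refine Integrable.of_bound hanti.measurable.aestronglyMeasurable 1
        (Eventually.of_forall fun t => ?_)
      rw [Real.norm_eq_abs, abs_of_nonneg measureReal_nonneg]
      exact measureReal_le_one
    have i2 : IntegrableOn (fun t : ℝ => κ.real {x | t < F x}) (Ioi 1) :=
      integrableOn_zero.congr_fun (fun t ht => (hz t ht).symm) measurableSet_Ioi
    rw [setIntegral_union (Ioc_disjoint_Ioi le_rfl) measurableSet_Ioi i1 i2,
      setIntegral_congr_fun measurableSet_Ioi hz]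
    simp
  have hanti : ∀ (κ : Measure X) [IsProbabilityMeasure κ],
      IntegrableOn (fun t : ℝ => κ.real {x | t < F x}) (Ioc 0 1) := by
    intro κ hκ
    have hanti : Antitone fun t : ℝ => κ.real {x | t < F x} := fun s t hst =>
      measureReal_mono fun x hx => lt_of_le_of_lt hst hx
    refine Integrable.of_bound hanti.measurable.aestronglyMeasurable 1
      (Eventually.of_forall fun t => ?_)
    rw [Real.norm_eq_abs, abs_of_nonneg measureReal_nonneg]
    exact measureReal_le_one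
  rw [key μ, key ν, ← integral_sub (hanti μ) (hanti ν)]
  have h1 := norm_setIntegral_le_of_norm_le_const (μ := (volume : Measure ℝ)) (s := Ioc (0 : ℝ) 1)
    (f := fun t => μ.real {x | t < F x} - ν.real {x | t < F x}) (C := ε) (by simp)
    (fun t _ => by
      rw [Real.norm_eq_abs]
      exact h _ (measurableSet_lt measurable_const hF))
  rw [Real.norm_eq_abs] at h1
  simpa using h1

/-- **M4** from the three pieces. -/
theorem m4_of
    (gd_bound : ∀ (d : ℕ) (κ R : ℝ), 1 ≤ κ → 0 ≤ R → ∀ V ∈ PotR d κ R, ∀ (y : Eu d) (n : ℕ),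
      ‖gradU V κ y (gd V κ y n)‖ ≤ (√(1 / 2)) ^ n * (R + κ * ‖y‖))
    (sub_mem : ∀ (d : ℕ) (κ R : ℝ), 1 ≤ κ → 0 ≤ R → ∀ V ∈ PotR d κ R, ∀ y c : Eu d,
      sub V κ y c ∈ PotClass d)
    (cov : ∀ (d : ℕ) (κ R : ℝ), 1 ≤ κ → 0 ≤ R → ∀ V ∈ PotR d κ R, ∀ (y c : Eu d)
      (f : Eu d → ℝ), Measurable f → (∀ x, 0 ≤ f x ∧ f x ≤ 1) →
      ∫ u, f u ∂(gibbs (post V (1 / κ) y)) =
        ∫ u, f (c + (√(1 + κ))⁻¹ • u)
          ∂(gibbs (fun u => sub V κ y c u + ⟪(√(1 + κ))⁻¹ • gradU V κ y c, u⟫))) : M4 := by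
  intro d q A κ R ε n₀ hd hκ hR hA V hV y f hf bf
  have hκ0 : 0 < κ := by linarith
  set c : Eu d := gd V κ y n₀ with hc
  set W : Eu d → ℝ := sub V κ y c with hW
  have hWm : W ∈ PotClass d := sub_mem d κ R hκ hR V hV y c
  have hpot := PotClass.pot hWm
  set g : Eu d := (√(1 + κ))⁻¹ • gradU V κ y c with hg
  set F : Eu d → ℝ := fun u => f (c + (√(1 + κ))⁻¹ • u) with hF
  have hFm : Measurable F := hf.comp (by fun_prop)
  have bF : ∀ u, 0 ≤ F u ∧ F u ≤ 1 := fun u => bf _
  -- the algorithm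
  have hadm : Adm W := hpot.adm
  have hprob : IsProbabilityMeasure (gibbs W) := hadm.isProb
  have hrun : letI := A.mΩ; Measurable (fun ω => run A W ω) := by
    let _ := A.mΩ
    exact A.out_meas.comp (measurable_id.prodMk (A.measurable_answers hWm q le_rfl))
  have hlaw : IsProbabilityMeasure (A.law W) := by
    let _ := A.mΩ
    have := A.prob
    exact Measure.isProbabilityMeasure_map (f := fun ω => run A W ω) hrun.aemeasurable
  have e1 : (letI := A.mΩ; ∫ ω, f (inner A V κ n₀ y ω) ∂A.P) = ∫ u, F u ∂(A.law W) := by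
    let _ := A.mΩ
    have : A.law W = A.P.map (fun ω => run A W ω) := rfl
    rw [this, integral_map hrun.aemeasurable hFm.aestronglyMeasurable]
    rfl
  have h1 : |(∫ u, F u ∂(A.law W)) - ∫ u, F u ∂(gibbs W)| ≤ ε := by
    refine real_to_int (fun B hB => ?_) hFm bF
    have := hA W hWm B hB
    rwa [target_eq_gibbs hWm] at this
  -- the tilt
  have hgn : √2 * ‖g‖ ≤ (√(1 / 2)) ^ n₀ * (R + κ * ‖y‖) := by
    have h2 := gd_bound d κ R hκ hR V hV y n₀
    rw [← hc] at h2
    refine le_trans ?_ h2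
    have hs : 0 < √(1 + κ) := Real.sqrt_pos.2 (by linarith)
    rw [hg, norm_smul, norm_inv, Real.norm_eq_abs, abs_of_pos hs, ← mul_assoc]
    have h3 : √2 ≤ √(1 + κ) := Real.sqrt_le_sqrt (by linarith)
    have h4 : √2 * (√(1 + κ))⁻¹ ≤ 1 := by
      rw [← div_eq_mul_inv, div_le_one hs]
      exact h3
    calc √2 * (√(1 + κ))⁻¹ * ‖gradU V κ y c‖ ≤ 1 * ‖gradU V κ y c‖ :=
          mul_le_mul_of_nonneg_right h4 (norm_nonneg _)
      _ = ‖gradU V κ y c‖ := one_mul _
  have h2 := tilt_two hadm hpot.midSC g hgn hFm bF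
  rw [e1, cov d κ R hκ hR V hV y c f hf bf]
  calc |(∫ u, F u ∂(A.law W)) - ∫ u, F u ∂(gibbs (fun u => W u + ⟪g, u⟫))|
      ≤ |(∫ u, F u ∂(A.law W)) - ∫ u, F u ∂(gibbs W)| +
        |(∫ u, F u ∂(gibbs W)) - ∫ u, F u ∂(gibbs (fun u => W u + ⟪g, u⟫))| := abs_sub_le _ _ _
    _ ≤ ε + (√(1 / 2)) ^ n₀ * (R + κ * ‖y‖) := by
        refine add_le_add h1 ?_
        rw [abs_sub_comm]
        exact h2

end Vale.Agent.P347.K
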