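import Vale.Agent.P347.H941.Base

/-! Assembly of the theorem for every condition number from M1 .. M5 (helper941, P347). -/

open MeasureTheory Filter Module
open scoped ENNReal NNReal RealInnerProductSpace
open Vale.Agent.P347.Z Vale.Agent.P347.S

namespace Vale.Agent.P347.K

variable {d q : ℕ}

/-- `0 ≤ f ≤ 1` and `f` measurable. -/
def U01 (f : Eu d → ℝ) : Prop := Measurable f ∧ ∀ x, 0 ≤ f x ∧ f x ≤ 1

theorem U01.int {X : Type*} [MeasurableSpace X] {μ : Measure X} [IsFiniteMeasure μ] {f : Eu d → ℝ}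
    (hf : U01 f) {g : X → Eu d} (hg : Measurable g) : Integrable (fun x => f (g x)) μ :=
  Integrable.of_bound (hf.1.comp hg).aestronglyMeasurable 1 (Eventually.of_forall fun x => by
    rw [Real.norm_eq_abs, abs_of_nonneg (hf.2 _).1]; exact (hf.2 _).2)

/-- One step of the ideal chain preserves inequalities. -/
theorem Pop_diff (h3 : M3) {κ R : ℝ} (hd : 1 ≤ d) (hκ : 1 ≤ κ) (hR : 0 ≤ R) {V : Eu d → ℝ}
    (hV : V ∈ PotR d κ R) {g h ψ : Eu d → ℝ} (hg : U01 g) (hh : U01 h) (hψ : U01 ψ)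
    (hle : ∀ x, |g x - h x| ≤ ψ x) (x : Eu d) : |Pop V κ g x - Pop V κ h x| ≤ Pop V κ ψ x := by
  obtain ⟨-, pr, me, -, -⟩ := h3 d κ R hd hκ hR V hV
  have hgam : IsProbabilityMeasure (gam (Eu d)) := inferInstance
  have hm : ∀ f : Eu d → ℝ, U01 f → Integrable
      (fun z => ∫ u, f u ∂(gibbs (post V (1 / κ) (x + √(1 / κ) • z)))) (gam (Eu d)) := by
    intro f hf
    refine Integrable.of_bound (((me f hf.1 hf.2).1.comp (g := fun y => ∫ u, f u ∂(gibbs (post V (1 / κ) y))) (f := fun z : Eu d => x + √(1 / κ) • z) (by fun_prop)).aestronglyMeasurable) 1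
      (Eventually.of_forall fun z => ?_)
    have := pr (x + √(1 / κ) • z)
    refine (norm_integral_le_of_norm_le_const (C := 1) (Eventually.of_forall fun u => ?_)).trans ?_
    · rw [Real.norm_eq_abs, abs_of_nonneg (hf.2 _).1]; exact (hf.2 _).2
    · simp only [probReal_univ, mul_one, le_refl]
  unfold Pop
  rw [← integral_sub (hm g hg) (hm h hh)]
  refine (abs_integral_le_integral_abs).trans (integral_mono ((hm g hg).sub (hm h hh)).abs (hm ψ hψ)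
    fun z => ?_)
  have := pr (x + √(1 / κ) • z)
  have ig : Integrable g (gibbs (post V (1 / κ) (x + √(1 / κ) • z))) := hg.int measurable_id
  have ih : Integrable h (gibbs (post V (1 / κ) (x + √(1 / κ) • z))) := hh.int measurable_id
  have iψ : Integrable ψ (gibbs (post V (1 / κ) (x + √(1 / κ) • z))) := hψ.int measurable_id
  show |(∫ u, g u ∂_) - ∫ u, h u ∂_| ≤ ∫ u, ψ u ∂_
  rw [← integral_sub ig ih]
  exact (abs_integral_le_integral_abs).trans (integral_mono (ig.sub ih).abs iψ fun u => hle u)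

theorem Pop_U01 (h3 : M3) {κ R : ℝ} (hd : 1 ≤ d) (hκ : 1 ≤ κ) (hR : 0 ≤ R) {V : Eu d → ℝ}
    (hV : V ∈ PotR d κ R) {g : Eu d → ℝ} (hg : U01 g) : U01 (Pop V κ g) := by
  obtain ⟨-, pr, me, -, -⟩ := h3 d κ R hd hκ hR V hV
  exact ⟨(me g hg.1 hg.2).2.1, (me g hg.1 hg.2).2.2⟩

theorem Pop_iter_diff (h3 : M3) {κ R : ℝ} (hd : 1 ≤ d) (hκ : 1 ≤ κ) (hR : 0 ≤ R) {V : Eu d → ℝ}
    (hV : V ∈ PotR d κ R) (k : ℕ) : ∀ {g h ψ : Eu d → ℝ}, U01 g → U01 h → U01 ψ →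
    (∀ x, |g x - h x| ≤ ψ x) → ∀ x : Eu d,
      |(Pop V κ)^[k] g x - (Pop V κ)^[k] h x| ≤ (Pop V κ)^[k] ψ x := by
  induction k with
  | zero => intro g h ψ _ _ _ hle x; exact hle x
  | succ k ih =>
    intro g h ψ hg hh hψ hle x
    rw [Function.iterate_succ_apply, Function.iterate_succ_apply, Function.iterate_succ_apply]
    exact ih (Pop_U01 h3 hd hκ hR hV hg) (Pop_U01 h3 hd hκ hR hV hh) (Pop_U01 h3 hd hκ hR hV hψ)
      (Pop_diff h3 hd hκ hR hV hg hh hψ hle) x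

theorem Sop_U01 (h2 : M2) (A : Algo d q) {κ R : ℝ} (hκ : 1 ≤ κ) {V : Eu d → ℝ}
    (hV : V ∈ PotR d κ R) (n₀ : ℕ) {g : Eu d → ℝ} (hg : U01 g) : U01 (Sop A V κ n₀ g) := by
  obtain ⟨h, -, -⟩ := h2 d q A κ n₀ hκ
  exact h V hV.1 g hg.1 hg.2

/-- Comparison of the chain with the ideal chain. -/
theorem chain_diff (h2 : M2) (h3 : M3) (A : Algo d q) {κ R : ℝ} (hd : 1 ≤ d) (hκ : 1 ≤ κ)
    (hR : 0 ≤ R) {V : Eu d → ℝ} (hV : V ∈ PotR d κ R) (n₀ : ℕ) {ψ : Eu d → ℝ} (hψ : U01 ψ)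
    (hone : ∀ f : Eu d → ℝ, U01 f → ∀ x, |Sop A V κ n₀ f x - Pop V κ f x| ≤ ψ x) (N : ℕ) :
    ∀ {f : Eu d → ℝ}, U01 f → ∀ x, |(Sop A V κ n₀)^[N] f x - (Pop V κ)^[N] f x| ≤
      ∑ k ∈ Finset.range N, (Pop V κ)^[k] ψ x := by
  induction N with
  | zero => intro f _ x; simp
  | succ N ih =>
    intro f hf x
    rw [Function.iterate_succ_apply, Function.iterate_succ_apply, Finset.sum_range_succ]
    have hS := Sop_U01 h2 A hκ hV n₀ hf
    have hP := Pop_U01 h3 hd hκ hR hV hf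
    have h1 := ih hS x
    have h4 := Pop_iter_diff h3 hd hκ hR hV N hS hP hψ (hone f hf) x
    calc |(Sop A V κ n₀)^[N] (Sop A V κ n₀ f) x - (Pop V κ)^[N] (Pop V κ f) x|
        ≤ |(Sop A V κ n₀)^[N] (Sop A V κ n₀ f) x - (Pop V κ)^[N] (Sop A V κ n₀ f) x| +
          |(Pop V κ)^[N] (Sop A V κ n₀ f) x - (Pop V κ)^[N] (Pop V κ f) x| := abs_sub_le _ _ _
      _ ≤ _ := add_le_add h1 h4

/-- The error of one step. -/
noncomputable def psi (d : ℕ) (κ R ε : ℝ) (n₀ : ℕ) (x : Eu d) : ℝ :=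
  min 1 (ε + (√(1 / 2)) ^ n₀ * (R + κ * ‖x‖ + √κ * √d))

theorem psi_U01 {κ R ε : ℝ} (hκ : 1 ≤ κ) (hR : 0 ≤ R) (hε : 0 ≤ ε) (n₀ : ℕ) :
    U01 (psi d κ R ε n₀) := by
  refine ⟨?_, fun x => ⟨le_min zero_le_one (by positivity), min_le_left _ _⟩⟩
  unfold psi
  fun_prop

theorem psi_lip {κ R ε : ℝ} (hκ : 1 ≤ κ) (n₀ : ℕ) (x y : Eu d) :
    |psi d κ R ε n₀ x - psi d κ R ε n₀ y| ≤ ((√(1 / 2)) ^ n₀ * κ) * ‖x - y‖ := by
  unfold psi
  refine (abs_min_sub_min_le_max _ _ _ _).trans ?_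
  rw [sub_self, abs_zero, max_eq_right (abs_nonneg _)]
  have e : ε + (√(1 / 2)) ^ n₀ * (R + κ * ‖x‖ + √κ * √d) -
      (ε + (√(1 / 2)) ^ n₀ * (R + κ * ‖y‖ + √κ * √d)) =
      (√(1 / 2)) ^ n₀ * κ * (‖x‖ - ‖y‖) := by ring
  rw [e, abs_mul, abs_of_nonneg (by positivity : 0 ≤ (√(1 / 2)) ^ n₀ * κ)]
  exact mul_le_mul_of_nonneg_left (abs_norm_sub_norm_le x y) (by positivity)

theorem one_step (h2 : M2) (h3 : M3) (h4 : M4) (A : Algo d q) {κ R ε : ℝ} (hd : 1 ≤ d)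
    (hκ : 1 ≤ κ) (hR : 0 ≤ R) (hε : 0 ≤ ε) (hA : A.Within ε) {V : Eu d → ℝ}
    (hV : V ∈ PotR d κ R) (n₀ : ℕ) {f : Eu d → ℝ} (hf : U01 f) (x : Eu d) :
    |Sop A V κ n₀ f x - Pop V κ f x| ≤ psi d κ R ε n₀ x := by
  let _ := A.mΩ
  have := A.prob
  have hκ0 : 0 < κ := by linarith
  obtain ⟨-, pr, me, -, -⟩ := h3 d κ R hd hκ hR V hV
  obtain ⟨hS, hinn, -⟩ := h2 d q A κ n₀ hκ
  have hin := hinn V hV.1
  have b1 := Sop_U01 h2 A hκ hV n₀ hf
  have b2 := Pop_U01 h3 hd hκ hR hV hf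
  refine le_min ?_ ?_
  · rw [abs_le]
    have a1 := b1.2 x
    have a2 := b2.2 x
    constructor <;> linarith [a1.1, a1.2, a2.1, a2.2]
  have hgam : IsProbabilityMeasure (gam (Eu d)) := inferInstance
  obtain ⟨g1, g2⟩ := uc_gam_norm (d := d)
  set ρ : ℝ := (√(1 / 2)) ^ n₀ with hρ
  have hρ0 : 0 ≤ ρ := by positivity
  have hmstep : Measurable (fun p : Eu d × A.Ω => step A V κ n₀ x p) := by
    have : Measurable (fun p : Eu d × A.Ω => (x + √(1 / κ) • p.1, p.2)) := by fun_prop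
    exact hin.comp this
  have hint : Integrable (fun p : Eu d × A.Ω => f (step A V κ n₀ x p)) ((gam (Eu d)).prod A.P) :=
    hf.int hmstep
  have e1 : Sop A V κ n₀ f x =
      ∫ z, (∫ ω, f (inner A V κ n₀ (x + √(1 / κ) • z) ω) ∂A.P) ∂(gam (Eu d)) := by
    unfold Sop
    rw [integral_prod _ hint]
    rfl
  have i1 : Integrable (fun z => ∫ ω, f (inner A V κ n₀ (x + √(1 / κ) • z) ω) ∂A.P)
      (gam (Eu d)) := hint.integral_prod_left
  have i2 : Integrable (fun z => ∫ u, f u ∂(gibbs (post V (1 / κ) (x + √(1 / κ) • z))))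
      (gam (Eu d)) := by
    refine Integrable.of_bound (((me f hf.1 hf.2).1.comp (g := fun y => ∫ u, f u ∂(gibbs (post V (1 / κ) y))) (f := fun z : Eu d => x + √(1 / κ) • z) (by fun_prop)).aestronglyMeasurable) 1
      (Eventually.of_forall fun z => ?_)
    have := pr (x + √(1 / κ) • z)
    refine (norm_integral_le_of_norm_le_const (C := 1) (Eventually.of_forall fun u => ?_)).trans ?_
    · rw [Real.norm_eq_abs, abs_of_nonneg (hf.2 _).1]; exact (hf.2 _).2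
    · simp only [probReal_univ, mul_one, le_refl]
  have hsκ : √(1 / κ) * κ = √κ := by
    rw [Real.sqrt_div zero_le_one, Real.sqrt_one, div_mul_eq_mul_div, one_mul]
    exact Real.div_sqrt
  have hb : ∀ z : Eu d, |(∫ ω, f (inner A V κ n₀ (x + √(1 / κ) • z) ω) ∂A.P) -
      ∫ u, f u ∂(gibbs (post V (1 / κ) (x + √(1 / κ) • z)))| ≤
      (ε + ρ * (R + κ * ‖x‖)) + ρ * √κ * ‖z‖ := by
    intro z
    refine (h4 d q A κ R ε n₀ hd hκ hR hA V hV (x + √(1 / κ) • z) f hf.1 hf.2).trans ?_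
    have h5 : ‖x + √(1 / κ) • z‖ ≤ ‖x‖ + √(1 / κ) * ‖z‖ := by
      refine (norm_add_le _ _).trans ?_
      rw [norm_smul, Real.norm_eq_abs, abs_of_nonneg (Real.sqrt_nonneg _)]
    have h6 : ρ * (R + κ * ‖x + √(1 / κ) • z‖) ≤ ρ * (R + κ * (‖x‖ + √(1 / κ) * ‖z‖)) := by
      gcongr
    have h7 : ρ * (R + κ * (‖x‖ + √(1 / κ) * ‖z‖)) = ρ * (R + κ * ‖x‖) + ρ * √κ * ‖z‖ := by
      rw [← hsκ]; ring
    rw [hρ] at h6 h7 ⊢
    linarith
  rw [e1]
  unfold Pop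
  rw [← integral_sub i1 i2]
  refine (abs_integral_le_integral_abs).trans ?_
  have i3 : Integrable (fun z : Eu d => (ε + ρ * (R + κ * ‖x‖)) + ρ * √κ * ‖z‖) (gam (Eu d)) :=
    (integrable_const _).add (g1.const_mul (ρ * √κ))
  refine (integral_mono (i1.sub i2).abs i3 fun z => hb z).trans ?_
  rw [integral_add (integrable_const _) (g1.const_mul _), integral_const, integral_const_mul]
  simp only [probReal_univ, smul_eq_mul, one_mul]
  have h8 : ρ * √κ * ∫ z, ‖z‖ ∂(gam (Eu d)) ≤ ρ * √κ * √d :=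
    mul_le_mul_of_nonneg_left g2 (by positivity)
  have h9 : ρ * (R + κ * ‖x‖ + √κ * √d) = ρ * (R + κ * ‖x‖) + ρ * √κ * √d := by ring
  rw [h9]
  linarith

theorem target_gibbs {V : Eu d → ℝ} (hp : IsProbabilityMeasure (gibbs V)) :
    target V = gibbs V := by
  have hi : Integrable (fun x => Real.exp (-V x)) (volume : Measure (Eu d)) := by
    by_contra h
    have h1 : gibbs V = 0 := by
      unfold gibbs
      exact tilted_of_not_integrable h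
    have h2 := hp.measure_univ
    rw [h1] at h2
    simp at h2
  have hpos : 0 < ∫ x, Real.exp (-V x) := integral_exp_pos hi
  unfold target gibbsOn gibbs Measure.tilted
  have h1 : ∫⁻ x, ENNReal.ofReal (Real.exp (-V x)) = ENNReal.ofReal (∫ x, Real.exp (-V x)) := by
    rw [ofReal_integral_eq_lintegral_ofReal hi (Eventually.of_forall fun x => (Real.exp_pos _).le)]
  rw [← withDensity_smul' _ _ (by rw [h1]; simp only [ne_eq, ENNReal.inv_eq_top, ENNReal.ofReal_eq_zero, not_le, hpos])]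
  congr 1
  funext x
  simp only [Pi.smul_apply, smul_eq_mul]
  rw [h1, ENNReal.ofReal_div_of_pos hpos, mul_comm, ENNReal.div_eq_inv_mul, mul_comm]

/-- The error of the composed algorithm. -/
theorem exists_outer (h2 : M2) (h3 : M3) (h4 : M4) (A : Algo d q) {κ R ε : ℝ} (hd : 1 ≤ d)
    (hκ : 1 ≤ κ) (hR : 0 ≤ R) (hε : 0 ≤ ε) (hA : A.Within ε) (N n₀ : ℕ) :
    ∃ A' : Algo d ((N + 1) * (n₀ + 1 + q)), A'.WithinR κ R
      ((N + 1) * (ε + 3 * (√(1 / 2)) ^ n₀ * κ * (√d + R)) +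
        ((1 + 1 / κ)⁻¹) ^ N * (√κ / 2) * (√d + R)) := by
  obtain ⟨-, -, hN⟩ := h2 d q A κ n₀ hκ
  obtain ⟨A', hA'⟩ := hN (N + 1)
  refine ⟨A', fun V hV B hB => ?_⟩
  obtain ⟨hp, pr, me, hconv, hmom⟩ := h3 d κ R hd hκ hR V hV
  have hκ0 : 0 < κ := by linarith
  set f : Eu d → ℝ := B.indicator (fun _ => (1 : ℝ)) with hf
  have hfU : U01 f := by
    refine ⟨measurable_const.indicator hB, fun x => ?_⟩
    simp only [hf]
    by_cases hx : x ∈ B
    · rw [Set.indicator_of_mem hx]; norm_num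
    · rw [Set.indicator_of_notMem hx]; norm_num
  rw [hA' V hV.1 B hB, target_gibbs hp]
  have e1 : (gibbs V).real B = ∫ x, f x ∂(gibbs V) := by
    simp only [hf]
    rw [integral_indicator_const _ hB, smul_eq_mul, mul_one]
  rw [e1]
  have hψ := psi_U01 (d := d) hκ hR hε n₀
  have hone : ∀ g : Eu d → ℝ, U01 g → ∀ x, |Sop A V κ n₀ g x - Pop V κ g x| ≤
      psi d κ R ε n₀ x := fun g hg x => one_step h2 h3 h4 A hd hκ hR hε hA hV n₀ hg x
  have c1 := chain_diff h2 h3 A hd hκ hR hV n₀ hψ hone (N + 1) hfU 0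
  have c2 := hconv N f hfU.1 hfU.2
  set ρ : ℝ := (√(1 / 2)) ^ n₀ with hρ
  have hρ0 : 0 ≤ ρ := by positivity
  have hψ0 : psi d κ R ε n₀ 0 ≤ ε + ρ * κ * (√d + R) := by
    unfold psi
    refine (min_le_right _ _).trans ?_
    rw [norm_zero, mul_zero, add_zero]
    have h5 : √κ ≤ κ := by
      rw [Real.sqrt_le_left hκ0.le]
      nlinarith
    have h6 : R + √κ * √d ≤ κ * (√d + R) := by
      have h7 : √κ * √d ≤ κ * √d := mul_le_mul_of_nonneg_right h5 (Real.sqrt_nonneg _)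
      have h8 : 1 * R ≤ κ * R := mul_le_mul_of_nonneg_right hκ hR
      linarith
    have h9 := mul_le_mul_of_nonneg_left h6 hρ0
    have h10 : ρ * (κ * (√d + R)) = ρ * κ * (√d + R) := by ring
    rw [h10] at h9
    linarith
  have c3 : ∑ k ∈ Finset.range (N + 1), (Pop V κ)^[k] (psi d κ R ε n₀) 0 ≤
      (N + 1) * (ε + 3 * ρ * κ * (√d + R)) := by
    have h5 : ∀ k ∈ Finset.range (N + 1), (Pop V κ)^[k] (psi d κ R ε n₀) 0 ≤
        ε + 3 * ρ * κ * (√d + R) := by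
      intro k _
      have h6 := hmom k (ρ * κ) (psi d κ R ε n₀) (by positivity) hψ.2 (psi_lip hκ n₀)
      have h7 : ε + 3 * ρ * κ * (√d + R) = (ε + ρ * κ * (√d + R)) + 2 * (ρ * κ) * (√d + R) := by
        ring
      rw [h7]
      linarith
    refine (Finset.sum_le_sum h5).trans (le_of_eq ?_)
    rw [Finset.sum_const, Finset.card_range, nsmul_eq_mul]
    push_cast
    ring
  calc |(Sop A V κ n₀)^[N + 1] f 0 - ∫ x, f x ∂(gibbs V)|
      ≤ |(Sop A V κ n₀)^[N + 1] f 0 - (Pop V κ)^[N + 1] f 0| +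
        |(Pop V κ)^[N + 1] f 0 - ∫ x, f x ∂(gibbs V)| := abs_sub_le _ _ _
    _ ≤ _ := add_le_add (c1.trans c3) c2

/-- **Every condition number**, from the interfaces. -/
theorem main_of (h2 : M2) (h3 : M3) (h4 : M4) (h5 : M5) : ∀ δ : ℝ, 0 < δ → ∃ C : ℝ, 1 ≤ C ∧
    ∀ (d : ℕ) (κ R ε : ℝ), 1 ≤ d → 1 ≤ κ → 0 ≤ R → 0 < ε → ε ≤ 1 →
      ∃ q : ℕ, (q : ℝ) ≤ C * κ * (κ * d * (1 + R) / ε) ^ δ ∧
        ∃ A : Algo d q, A.WithinR κ R ε := by
  intro δ hδ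
  obtain ⟨δ', hδ', h5'⟩ := h5 δ hδ
  obtain ⟨C₀, hC₀, h1⟩ := m1 δ' hδ'
  obtain ⟨C, hC, h6⟩ := h5' C₀ hC₀
  refine ⟨C, hC, fun d κ R ε hd hκ hR hε hε1 => ?_⟩
  obtain ⟨N, n₀, ε', hε', hε'1, herr, hcost⟩ := h6 d κ R ε hd hκ hR hε hε1
  obtain ⟨q, hq, A, hA⟩ := h1 d ε' hd hε' hε'1
  obtain ⟨A', hA'⟩ := exists_outer h2 h3 h4 A hd hκ hR hε'.le hA N n₀
  exact ⟨_, hcost q hq, A', fun V hV B hB => (hA' V hV B hB).trans herr⟩

end Vale.Agent.P347.K
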