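import Vale.Agent.P347.H941.Inner
import Vale.Agent.P347.H941.Cov
import Vale.Agent.P347.H473.Sub

/-! M4: the inner sampler is close to the proximal target (helper941 with helper473, P347). -/

namespace Vale.Agent.P347.K

theorem m4 : M4 :=
  m4_of (fun _ _ _ hκ _ _ hV y n => I3.gd_bound hκ hV y n)
    (fun _ _ _ hκ _ _ hV y c => I3.sub_mem hκ hV y c)
    (fun d κ _ hκ _ V _ y c f _ _ => cov d κ hκ V y c f)

end Vale.Agent.P347.K
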